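import Vale.Agent.P287Q.Int.Defs
import Vale.Agent.P269.Prj.Quo

/-!
# P287, integral structure: statements
-/

namespace Vale.Agent.P287Q.Zc

open P291Z Set Topology Filter Module P269

/-- Suspension: a generator of the product with a line. -/
def StStep : Prop := ∀ (Y : Type) [TopologicalSpace Y] [Nice Y] (d : ℤ) (b : Coch Y), GenZ d b →
  GenZ (d + 1) (pull Prod.fst (δ stp) * pull Prod.snd b : Coch (ℝ × Y))

/-- The orientation cocycle generates the integral cohomology with compact supports of `ℂ^r`. -/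
def StTau : Prop := ∀ r : ℕ, ∃ t : Coch (Fin r → ℂ),
  GenZ (2 * r) t ∧ supp t ⊆ {0} ∧ Cohom {0} t (tau r)

/-- The fundamental class of a complex manifold is an integral orientation. -/
def StOri : Prop := ∀ (A W : Type) [NormedRing A] [NormedAlgebra ℂ A] [NormedAddCommGroup W]
  [NormedSpace ℂ W] [FiniteDimensional ℂ A] [FiniteDimensional ℂ W] (act : A → W → W) (S : Set W)
  [Holo.IsAct act univ] [Mono.FP act S] (n : ℕ), Tq.Dim act S n → OriZ (2 * n) (Tq.fnd act S)

/-- The integral of an integral class is an integer. -/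
def StInt : Prop := ∀ (X : Type) [TopologicalSpace X] [Nice X] [CompactSpace X] (d : ℤ) (β : BM X),
  OriZ d β → ∀ c ∈ Lam X, Loc.intg β c ∈ ZZ

/-- Integral Poincare duality. -/
def StUni : Prop := ∀ (X : Type) [TopologicalSpace X] [Nice X] [CompactSpace X] (d : ℤ) (β : BM X),
  OriZ d β → ∀ x : H X, (∀ y ∈ Lam X, Loc.intg β (y * x) ∈ ZZ) → x ∈ Lam X

/-- The integral classes span the cohomology. -/
def StSpan : Prop := ∀ (X : Type) [TopologicalSpace X] [Nice X] [CompactSpace X] (k : ℤ),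
  Submodule.span ℂ (Lk X k : Set (H X)) = H.deg X k

/-- The lattice of the integral classes of degree `k` of a compact oriented manifold. -/
structure IsLat (X : Type) [TopologicalSpace X] (k : ℤ) : Prop where
  free : Module.Free ℤ (Lk X k)
  fin : Module.Finite ℤ (Lk X k)
  finC : FiniteDimensional ℂ (H X)
  rank : finrank ℤ (Lk X k) = finrank ℂ (H.deg X k)
  span : Submodule.span ℂ (Lk X k : Set (H X)) = H.deg X k
  ind : ∀ (ι : Type) (v : ι → Lk X k), LinearIndependent ℤ v → LinearIndependent ℂ fun i => (v i).1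

/-- `B` is the intersection form. -/
def IsForm {X : Type} [TopologicalSpace X] (β : BM X) (k : ℤ) (B : LinearMap.BilinForm ℤ (Lk X k)) :
    Prop := ∀ x y, (B x y : ℂ) = Loc.intg β (x.1 * y.1)

/-- The lattices in all degrees; the unimodular lattice in the middle degree. -/
def StLat : Prop := ∀ (X : Type) [TopologicalSpace X] [Nice X] [CompactSpace X] (d : ℤ) (β : BM X),
  OriZ d β → (∀ k, IsLat X k) ∧
    (∀ k (x : H X), H.IsDeg k x → (∀ y ∈ Lk X (d - k), Loc.intg β (y * x) ∈ ZZ) → x ∈ Lk X k) ∧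
    ∀ k, d = 2 * k → ∃ B, IsForm β k B ∧ Function.Bijective B ∧ (Even k → B.IsSymm)

/-- First Chern classes of line bundles are integral. -/
def StC1 : Prop := ∀ (A W : Type) [NormedRing A] [NormedAlgebra ℂ A] [NormedAddCommGroup W]
  [NormedSpace ℂ W] [FiniteDimensional ℂ A] [FiniteDimensional ℂ W] (act : A → W → W) (S : Set W)
  [Holo.IsAct act univ] [Mono.FP act S] [CompactSpace (Quo act S)] (n : ℕ) (c : A → ℂ),
  Tq.Dim act S n → Tq.Hm c →
  Tq.lcq act S c ∈ Lam (Quo act S)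

/-- The algebraic part of a lattice `L` for a class `σ`. -/
def alg {V : Type} [AddCommGroup V] [Module ℂ V] (J : LinearMap.BilinForm ℂ V) (L : Submodule ℤ V)
    (σ : V) : Submodule ℤ V := L ⊓ (LinearMap.ker (J σ)).restrictScalars ℤ

/-- The transcendental part of a lattice `L` for a class `σ`. -/
def trn {V : Type} [AddCommGroup V] [Module ℂ V] (J : LinearMap.BilinForm ℂ V) (L : Submodule ℤ V)
    (σ : V) : Submodule ℤ V := L ⊓ ⨅ a ∈ alg J L σ, (LinearMap.ker (J a)).restrictScalars ℤ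

/-- `L` is a unimodular lattice in the subspace `U`. -/
structure Uni {V : Type} [AddCommGroup V] [Module ℂ V] (J : LinearMap.BilinForm ℂ V)
    (U : Submodule ℂ V) (L : Submodule ℤ V) : Prop where
  span : Submodule.span ℂ (L : Set V) = U
  symm : ∀ x ∈ U, ∀ y ∈ U, J x y = J y x
  int : ∀ x ∈ L, ∀ y ∈ L, J x y ∈ ZZ
  nondeg : ∀ x ∈ U, (∀ y ∈ U, J x y = 0) → x = 0
  rep : ∀ φ : V →ₗ[ℂ] ℂ, (∀ y ∈ L, φ y ∈ ZZ) → ∃ x ∈ L, ∀ y ∈ U, J x y = φ y

/-- An integral correspondence which matches the classes identifies the transcendental lattices. -/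
def StTrn : Prop := ∀ (V V' : Type) [AddCommGroup V] [Module ℂ V] [AddCommGroup V'] [Module ℂ V']
  (J : LinearMap.BilinForm ℂ V) (J' : LinearMap.BilinForm ℂ V') (U : Submodule ℂ V)
  (U' : Submodule ℂ V') (L : Submodule ℤ V) (L' : Submodule ℤ V') (σ : V) (σ' : V')
  (c : V →ₗ[ℂ] V' →ₗ[ℂ] ℂ), Uni J U L → Uni J' U' L' → σ ∈ U → σ' ∈ U' →
  (∀ x ∈ L, ∀ y ∈ L', c x y ∈ ZZ) → (∀ y ∈ U', c σ y = -J' σ' y) → (∀ x ∈ U, c x σ' = J σ x) →
  ∃ f : trn J L σ ≃ₗ[ℤ] trn J' L' σ', ∀ s t, J' (f s).1 (f t).1 = -J s.1 t.1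

/-- The middle cohomology is a unimodular lattice. -/
def StUniLk : Prop := ∀ (X : Type) [TopologicalSpace X] [Nice X] [CompactSpace X] (k : ℤ)
  (β : BM X), Even k → OriZ (2 * k) β →
  Uni ((LinearMap.mul ℂ (H X)).compr₂ (Loc.intg β)) (H.deg X k) (Lk X k)

end Vale.Agent.P287Q.Zc
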