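import Vale.Agent.P287Q.Int.St
import Vale.Agent.P269.Orb.Ext

/-!
# P287, integral structure: Gysin maps and first Chern classes are integral
-/

set_option linter.style.haveILetI false

namespace Vale.Agent.P287Q.Zc

open P291Z Set Topology Filter Module Function P269 P269.Tq P269.Holo P269.Mono

/-- **Gysin images of integral classes are integral.** -/
theorem gysin (h1 : StInt) (h2 : StUni) {Z X : Type} [TopologicalSpace Z] [Nice Z] [CompactSpace Z]
    [TopologicalSpace X] [Nice X] [CompactSpace X] (f : C(Z, X)) {dZ dX : ℤ} {γ : BM Z} {β : BM X}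
    (hγ : OriZ dZ γ) (hβ : OriZ dX β) {z : H Z} (hz : z ∈ Lam Z) {x : H X}
    (h : ∀ y, Loc.intg β (y * x) = Loc.intg γ (H.map f y * z)) : x ∈ Lam X :=
  h2 X dX β hβ x fun y hy => h y ▸ h1 Z dZ γ hγ _ ((Lam Z).mul_mem (Lam.map f hy) hz)

/-- The class dual to an integrally oriented cycle is integral. -/
theorem dual_mem (h1 : StInt) (h2 : StUni) {Z X : Type} [TopologicalSpace Z] [Nice Z]
    [CompactSpace Z] [TopologicalSpace X] [Nice X] [CompactSpace X] (f : C(Z, X)) {dZ dX : ℤ}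
    {γ : BM Z} {β : BM X} (hγ : OriZ dZ γ) (hβ : OriZ dX β) {x : H X}
    (h : push f γ = cap x β) : x ∈ Lam X :=
  gysin h1 h2 f hγ hβ (Lam Z).one_mem fun y => by rw [← Loc.intg_cap, ← h, Loc.intg_push, mul_one]

variable {A W : Type} [NormedRing A] [NormedAlgebra ℂ A] [NormedAddCommGroup W] [NormedSpace ℂ W]
  [FiniteDimensional ℂ A] [FiniteDimensional ℂ W] {act : A → W → W} {S Z : Set W} [IsAct act univ]
  [FP act S] {n : ℕ}

/-- **The class of a transverse zero set is integral.** -/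
theorem zero_mem_Lam (h0 : StOri) (h1 : StInt) (h2 : StUni) [CompactSpace (Quo act S)] {ι : Type}
    [Fintype ι] {c : ι → A → ℂ} {s : W → ι → ℂ} (h : Sec act S c s)
    (hd : Dim act S (n + Fintype.card ι)) (hl : ∀ a, IsUnit a → IsLinearMap ℂ (act a))
    (hZ : ∀ x, x ∈ Z ↔ x ∈ S ∧ s x = 0) [FP act Z] (ha : ∀ x ∈ Z, AnalyticAt ℂ s x)
    (ht : ∀ x (hx : x ∈ S), x ∈ Z → ∀ w, ∃ v ∈ tan (Subtype.val : S → W) ⟨x, hx⟩,
      fderiv ℂ s x v = w) : (∏ i, lce act S (h.hm i)).1 ∈ Lam (Quo act S) := by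
  obtain ⟨k1, k2, k3⟩ := h.gys hd hl hZ ha ht fun x hx => ((hZ x).1 hx).1
  haveI := k2.compactSpace
  exact dual_mem h1 h2 _ (h0 A W act Z n k1) (h0 A W act S _ hd) k3

namespace PJ

/-- The scalar action. -/
def sm (E : Type) [SMul ℂ E] : ℂ → E → E := fun t x => t • x

variable {E : Type} [NormedAddCommGroup E] [NormedSpace ℂ E]

theorem isAct : IsAct (sm E) univ :=
  ⟨fun x _ => one_smul ℂ x, fun a b _ _ x _ => mul_smul a b x, fun _ _ _ _ => trivial,
    fun _ _ _ _ => analyticAt_fst.smul analyticAt_snd⟩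

attribute [local instance] isAct

theorem mem {a : ℂ} (ha : IsUnit a) {x : E} (hx : x ∈ ({0}ᶜ : Set E)) : sm E a x ∈ ({0}ᶜ : Set E) :=
  smul_ne_zero ha.ne_zero hx

variable [FiniteDimensional ℂ E]

theorem fp : FP (sm E) ({0}ᶜ : Set E) := by
  refine fp_of (fun _ ha _ => mem ha) isOpen_compl_singleton.isLocallyClosed
    (fun a _ x hx e => smul_left_injective ℂ hx (e.trans (one_smul ℂ x).symm))
    fun x a x₀ x₁ _ _ h3 _ h5 h6 h7 => ?_
  have h8 := norm_ne_zero_iff.2 h3
  refine not_tendsto_atTop_of_tendsto_nhds ((h6.norm.div h5.norm h8).congr'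
    ((h5.norm.eventually_ne h8).mono fun n hn => ?_)) h7
  simp only [Pi.div_apply, sm, norm_smul]
  rw [mul_div_cancel_right₀ _ hn]

attribute [local instance] fp

theorem compact : CompactSpace (Quo (sm E) ({0}ᶜ : Set E)) := by
  haveI := FiniteDimensional.proper ℂ E
  have e : Metric.sphere (0 : E) 1 ⊆ {0}ᶜ := fun x hx h => by simp [mem_singleton_iff.1 h] at hx
  refine Function.Surjective.compactSpace (f := fun x => Quo.mk (sm E) (inclusion e x))
    (continuous_mk.comp (continuous_inclusion e)) fun z => ?_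
  obtain ⟨⟨x, hx⟩, rfl⟩ := mk_surj z
  have h1 : (‖x‖ : ℂ) ≠ 0 := Complex.ofReal_ne_zero.2 (norm_ne_zero_iff.2 hx)
  exact ⟨⟨sm E (‖x‖ : ℂ)⁻¹ x, by simp [sm, norm_smul, norm_ne_zero_iff.2 hx]⟩,
    mk_act (inv_ne_zero h1).isUnit hx _⟩

theorem dim (h : finrank ℂ E = n + 1) : Dim (sm E) ({0}ᶜ : Set E) n := fun x hx => by
  rw [finrank_self, add_comm, ← h]
  exact (MfdAt.univ x).congr ((isOpen_compl_singleton.eventually_mem hx).mono fun _ b =>
    iff_of_true trivial b)

/-- The hyperplane class is integral. -/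
theorem lcq_mem_Lam (h0 : StOri) (h1 : StInt) (h2 : StUni) (h : finrank ℂ E = n + 2) :
    lcq (sm E) ({0}ᶜ : Set E) (fun a => a) ∈ Lam _ := by
  haveI := compact (E := E)
  haveI : Nontrivial E := Module.nontrivial_of_finrank_pos (R := ℂ) (by omega)
  obtain ⟨v, hv⟩ := exists_ne (0 : E)
  obtain ⟨l, hl⟩ := SeparatingDual.exists_eq_one (R := ℂ) hv
  let L : E →L[ℂ] Unit → ℂ := ContinuousLinearMap.pi fun _ => l
  have hs : Sec (sm E) ({0}ᶜ : Set E) (fun (_ : Unit) a => a) L :=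
    ⟨fun _ => Hm.id, L.continuous.continuousOn, fun a _ x _ _ => map_smul l a x⟩
  haveI : FP (sm E) {x | x ∈ ({0}ᶜ : Set E) ∧ L x = 0} := fp.mono (fun _ b => b.1)
    (fun a ha x hx => ⟨mem ha hx.1, by rw [sm, map_smul, hx.2, smul_zero]⟩)
    (isOpen_compl_singleton.isLocallyClosed.inter
      (isClosed_eq L.continuous continuous_const).isLocallyClosed)
  have := zero_mem_Lam (n := n) (Z := {x | x ∈ ({0}ᶜ : Set E) ∧ L x = 0}) h0 h1 h2 hs
    (dim (by simp [h]))
    (fun a _ => ⟨smul_add a, fun c x => smul_comm a c x⟩) (fun _ => Iff.rfl)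
    (fun x _ => L.analyticAt x) fun x hx _ w => ⟨w () • v, by
      rw [(IsMfd.of_lh (lh_of_range_mem IsEmbedding.subtypeVal (by
        rw [Subtype.range_coe]; exact isOpen_compl_singleton.mem_nhds hx))).2]
      trivial, by rw [L.fderiv]; exact funext fun _ => by simp [L, hl]⟩
  rwa [Fintype.prod_unique, lce_val] at this

end PJ

/-- An equivariant continuous function which does not vanish at a given free point. -/
theorem exists_eqv_ne (Y : Ch.Sp) (χ : Y.G →ₜ* ℂˣ) (t : Y.T) (ht : ∀ g : Y.G, g • t = t → g = 1) :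
    ∃ F : Y.T → ℂ, Continuous F ∧ (∀ (g : Y.G) x, F (g • x) = χ g * F x) ∧ F t ≠ 0 := by
  have h1 : IsClosedEmbedding fun g : Y.G => g • t := by
    refine .of_continuous_injective_isClosedMap (by fun_prop) (fun g g' e => ?_) fun U hU => ?_
    · have : (g'⁻¹ * g) • t = t := by rw [mul_smul, show g • t = g' • t from e, inv_smul_smul]
      exact (inv_mul_eq_one.1 (ht _ this)).symm
    · have := hU.smul_right_of_isCompact (isCompact_singleton (x := t))
      rwa [smul_singleton] at this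
  let f : Y.T → ℂ := fun x => χ (invFun (fun g : Y.G => g • t) x)
  have k : ∀ g : Y.G, f (g • t) = χ g := fun g =>
    congrArg (fun g => (χ g : ℂ)) (leftInverse_invFun h1.injective g)
  obtain ⟨F, f1, f2, f3⟩ := Y.exists_ext (M := (Ch.char χ).W) h1.isClosed_range
    (by rintro g _ ⟨g', rfl⟩; exact ⟨g * g', mul_smul _ _ _⟩) (f := f)
    (image_univ ▸ h1.isInducing.continuousOn_image_iff.2
      ((Units.continuous_val.comp χ.continuous).congr fun g => (k g).symm).continuousOn)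
    (by
      rintro g _ ⟨g', rfl⟩
      change f (g • g' • t) = χ g * f (g' • t)
      rw [← mul_smul, k, k, map_mul, Units.val_mul])
  refine ⟨F, f1, f2, fun h => (χ 1).ne_zero ?_⟩
  rw [← k, one_smul, ← h]
  exact (f3 t ⟨1, one_smul _ _⟩).symm

/-- **The classifying map** of the line bundle of a character. -/
theorem exists_classify [CompactSpace (Quo act S)] {c : A → ℂ} (hc : Hm c) :
    ∃ (N : ℕ) (f : W → Fin (N + 2) → ℂ), Eqh act (PJ.sm _) S {0}ᶜ c f := by
  classical
  have h0 : ∀ t : Sp act S, ∃ F : Sp act S → ℂ, Continuous F ∧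
      (∀ (g : Aˣ) x, F (g • x) = c g * F x) ∧ F t ≠ 0 := fun t =>
    exists_eqv_ne (sp act S) hc.ρ t (FP.free t)
  choose F f1 f2 f3 using h0
  obtain ⟨T, hT⟩ := isCompact_univ.elim_finite_subcover (fun t => Sp.mk '' {x | F t x ≠ 0})
    (fun t => Sp.isOpenQuotientMap_mk.isOpenMap _ (isOpen_ne_fun (f1 t) continuous_const))
    fun z _ => by
      obtain ⟨t, rfl⟩ := Sp.surjective_mk z
      exact mem_iUnion.2 ⟨t, t, f3 t, rfl⟩
  let e := T.equivFin
  refine ⟨T.card, fun x i => if h : x ∈ S ∧ i.1 < T.card then F (e.symm ⟨i, h.2⟩) (Sp.of act x h.1)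
    else 0, hc, fun x hx h => ?_, continuousOn_iff_continuous_domRestrict.2 (continuous_pi fun i => ?_),
    fun a ha x hx => funext fun i => ?_⟩
  · obtain ⟨t, ht, y, h1, h2⟩ := mem_iUnion₂.1 (hT (mem_univ (Sp.mk (Sp.of act x hx))))
    obtain ⟨g, h3⟩ := Sp.mk_eq_iff.1 h2
    have h4 := congrFun (mem_singleton_iff.1 h) ⟨e ⟨t, ht⟩, by omega⟩
    simp only [hx, Fin.is_lt, and_self, dite_true, Fin.eta, Equiv.symm_apply_apply, ← h3, f2] at h4
    exact mul_ne_zero (hc.isUnit g.isUnit).ne_zero h1 h4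
  · by_cases h : i.1 < T.card
    · exact (f1 (e.symm ⟨i, h⟩)).congr fun x : S => by
        rw [domRestrict_apply, dif_pos ⟨x.2, h⟩]; rfl
    · exact (continuous_const (y := 0)).congr fun x => by
        rw [domRestrict_apply, dif_neg fun k => h k.2]
  · have h1 := IsAct.mem (act := act) a ha x hx
    by_cases h : i.1 < T.card
    · simp only [PJ.sm, Pi.smul_apply, hx, h1, h, and_self, dite_true, smul_eq_mul]
      exact f2 _ ha.unit (Sp.of act x hx)
    · simp [PJ.sm, h]

/-- **First Chern classes are integral** (no manifold structure is needed). -/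
theorem lcq_mem_Lam (h0 : StOri) (h1 : StInt) (h2 : StUni) [CompactSpace (Quo act S)] {c : A → ℂ}
    (hc : Hm c) : lcq act S c ∈ Lam (Quo act S) := by
  obtain ⟨N, f, hf⟩ := exists_classify (act := act) (S := S) hc
  haveI := PJ.isAct (E := Fin (N + 2) → ℂ)
  haveI := PJ.fp (E := Fin (N + 2) → ℂ)
  exact hf.map_lcq Hm.id ▸ Lam.map _ (PJ.lcq_mem_Lam (n := N) h0 h1 h2 (by simp))

theorem c1_of (h0 : StOri) (h1 : StInt) (h2 : StUni) : StC1 :=
  fun _ _ _ _ _ _ _ _ _ _ _ _ _ _ _ _ hc => lcq_mem_Lam h0 h1 h2 hc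

end Vale.Agent.P287Q.Zc
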