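import Vale.Agent.P287Q.Int.St
import Vale.Agent.P291Z.Fl0

/-!
# P287, integral structure: the integral classes span, they form a unimodular lattice
-/

set_option linter.unusedSectionVars false

namespace Vale.Agent.P287Q.Zc

open P291Z P291Z.Fl Set Topology Filter Module P269

namespace ZLat

variable {X : Type}

/-- An additive map applied to the values of a cochain. -/
noncomputable def pst (φ : ℂ →+ ℂ) (a : Coch X) : Coch X :=
  ⟨fun l => φ (a.1 l), by
    obtain ⟨h0, N, hN⟩ := a.2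
    exact ⟨by simp [h0], N, fun l hl => by simp [hN l hl]⟩⟩

theorem pst_val (φ : ℂ →+ ℂ) (a : Coch X) (l : List X) : (pst φ a).1 l = φ (a.1 l) := rfl

theorem δ_pst (φ : ℂ →+ ℂ) (a : Coch X) : δ (pst φ a) = pst φ (δ a) := Coch.ext fun l => by
  change ∑ i ∈ Finset.range l.length, (-1) ^ i * φ (a.1 (l.eraseIdx i)) =
    φ (∑ i ∈ Finset.range l.length, (-1) ^ i * a.1 (l.eraseIdx i))
  rw [map_sum]
  refine Finset.sum_congr rfl fun i _ => ?_
  rcases neg_one_pow_eq_or ℂ i with h | h <;> simp [h]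

theorem exists_coord {G : Submodule ℤ ℂ} (hG : G.FG) : ∃ (n : ℕ) (s : Fin n → ℂ)
    (φ : Fin n → ℂ →+ ℂ), ∀ g ∈ G, (∀ i, φ i g ∈ ZZ) ∧ g = ∑ i, s i * φ i g := by
  have : Module.Finite ℤ G := Module.Finite.iff_fg.2 hG
  let b := Module.finBasis ℤ G
  choose φ hφ using fun i => (Module.Baer.of_divisible ℂ).extension_property G.subtype
    G.injective_subtype ((Int.castAddHom ℂ).toIntLinearMap ∘ₗ b.coord i)
  have h1 : ∀ i (g : G), φ i g = (b.repr g i : ℂ) := fun i g => LinearMap.congr_fun (hφ i) g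
  refine ⟨_, fun i => b i, fun i => (φ i).toAddMonoidHom, fun g hg =>
    ⟨fun i => ⟨_, (h1 i ⟨g, hg⟩).symm⟩, ?_⟩⟩
  have h2 := congrArg Subtype.val (b.sum_repr ⟨g, hg⟩)
  rw [Submodule.coe_sum] at h2
  refine h2.symm.trans (Finset.sum_congr rfl fun i _ => ?_)
  change b.repr ⟨g, hg⟩ i • (b i : ℂ) = b i * φ i (⟨g, hg⟩ : G)
  rw [h1, zsmul_eq_mul, mul_comm]

variable [TopologicalSpace X]

/-- Cochains with values in a finitely generated group near `x`. -/
def VanF (x : X) : Submodule ℤ (Coch X) where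
  carrier := {a | ∃ G : Submodule ℤ ℂ, G.FG ∧ ∃ U ∈ 𝓝 x, ∀ l : List X, (∀ y ∈ l, y ∈ U) → a.1 l ∈ G}
  zero_mem' := ⟨⊥, Submodule.fg_bot, univ, univ_mem, fun _ _ => Submodule.zero_mem _⟩
  add_mem' := by
    rintro a b ⟨G, hG, U, hU, h⟩ ⟨G', hG', V, hV, h'⟩
    exact ⟨G ⊔ G', hG.sup hG', U ∩ V, inter_mem hU hV, fun l hl => Submodule.add_mem_sup
      (h l fun y hy => (hl y hy).1) (h' l fun y hy => (hl y hy).2)⟩
  smul_mem' := by
    rintro k a ⟨G, hG, U, hU, h⟩
    refine ⟨G, hG, U, hU, fun l hl => ?_⟩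
    rw [← Int.cast_smul_eq_zsmul ℂ, Coch.smul_val, Pi.smul_apply, Int.cast_smul_eq_zsmul]
    exact G.smul_mem k (h l hl)

theorem vanF_of_van {a : Coch X} {x : X} (ha : a ∈ Van x) : a ∈ VanF x := by
  obtain ⟨U, hU, h⟩ := notMem_supp.1 ha
  exact ⟨⊥, Submodule.fg_bot, U, hU, fun l hl => h l hl⟩

variable (X) in
/-- The cochains modulo the cochains which are locally of finite rank. -/
noncomputable def softF : Soft ℤ X (Coch X) where
  δ := δ.restrictScalars ℤ
  deg n := (degS X n).restrictScalars ℤ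
  Van := VanF
  cut S := (cut S).restrictScalars ℤ
  δ_deg _ _ ha := IsDeg.δ ha
  δδ a x := by
    change δ (δ a) ∈ _
    rw [δ_δ]
    exact Submodule.zero_mem _
  δ_van x a := by
    rintro ⟨G, hG, U, hU, h⟩
    refine ⟨G, hG, U, hU, fun l hl => ?_⟩
    change ∑ i ∈ Finset.range l.length, (-1) ^ i * a.1 (l.eraseIdx i) ∈ G
    refine G.sum_mem fun i _ => ?_
    have h1 := h (l.eraseIdx i) fun y hy => hl y (List.mem_of_mem_eraseIdx hy)
    rcases neg_one_pow_eq_or ℂ i with e | e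
    · rwa [e, one_mul]
    · rw [e, neg_one_mul]
      exact G.neg_mem h1
  van_open a := isOpen_iff_mem_nhds.2 fun x ⟨G, hG, U, hU, h⟩ =>
    (eventually_mem_nhds_iff.2 hU).mono fun y hy => ⟨G, hG, U, hy, h⟩
  cut_deg S _ _ ha := IsDeg.cut ha S
  cut_van S x a := by
    rintro ⟨G, hG, U, hU, h⟩
    refine ⟨G, hG, U, hU, fun l hl => ?_⟩
    change (cut S a).1 l ∈ G
    rw [cut_val]
    split_ifs
    exacts [h l hl, G.zero_mem]
  cut_in _ _ a hS := vanF_of_van (cut_in hS a)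
  cut_out _ _ a hS := vanF_of_van (cut_out hS a)

theorem softF_stalk (x : X) (n : ℤ) : (softF X).StalkExact x n := by
  rintro a ha ⟨G, hG, U, hU, h⟩
  refine ⟨coneOp x a, coneOp_deg x ha, ?_⟩
  have e : a - δ (coneOp x a) = coneOp x (δ a) + a.1 [x] • (1 : Coch X) := by
    conv_lhs => enter [1]; rw [coneOp_δ x a]
    abel
  change a - δ (coneOp x a) ∈ VanF x
  rw [e]
  refine (VanF x).add_mem ⟨G, hG, U, hU, fun l hl => ?_⟩
    ⟨Submodule.span ℤ {a.1 [x]}, Submodule.fg_span_singleton _, univ, univ_mem, fun l _ => ?_⟩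
  · rw [coneOp_val]
    split_ifs
    · exact G.zero_mem
    · refine h (x :: l) fun y hy => ?_
      rcases List.mem_cons.1 hy with rfl | hy
      exacts [mem_of_mem_nhds hU, hl y hy]
  · change a.1 [x] * unit X l ∈ _
    unfold P291Z.unit
    split_ifs
    · rw [mul_one]
      exact Submodule.mem_span_singleton_self _
    · rw [mul_zero]
      exact Submodule.zero_mem _

theorem exists_fg [CompactSpace X] {a : Coch X} (h : ∀ x, a ∈ VanF x) : ∃ G : Submodule ℤ ℂ,
    G.FG ∧ ∀ x : X, ∃ U ∈ 𝓝 x, ∀ l : List X, (∀ y ∈ l, y ∈ U) → a.1 l ∈ G := by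
  choose G hG U hU h using h
  obtain ⟨t, -, ht⟩ := isCompact_univ.elim_nhds_subcover (fun x => interior (U x))
    fun x _ => interior_mem_nhds.2 (hU x)
  refine ⟨t.sup G, Submodule.fg_finset_sup t G fun x _ => hG x, fun x => ?_⟩
  obtain ⟨y, hy, hx⟩ := mem_iUnion₂.1 (ht (mem_univ x))
  exact ⟨U y, mem_interior_iff_mem_nhds.1 hx, fun l hl => Finset.le_sup (f := G) hy (h y l hl)⟩

end ZLat

open ZLat

theorem span : StSpan := by
  intro X _ _ _ k
  refine le_antisymm (Submodule.span_le.2 fun c hc => hc.2) fun c hc => ?_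
  obtain ⟨a, ha, hk, rfl⟩ := H.isDeg_iff.1 hc
  obtain ⟨b, hb, e⟩ := (softF X).exactOn_of_stalk (U := univ) (n₀ := 0) (k := k)
    (fun n hn a ha => by rw [IsDeg.eq_zero ha hn]; exact Submodule.zero_mem _)
    (fun x _ n _ _ => softF_stalk x n) k le_rfl univ subset_rfl isCompact_univ a hk
    fun x _ => vanF_of_van (supp_eq_empty.1 ha x)
  obtain ⟨G, hG, h1⟩ := exists_fg (a := a - δ b) fun x => e x (mem_univ x)
  obtain ⟨n, s, φ, h2⟩ := exists_coord hG
  have h3 : supp (δ (a - δ b)) = ∅ := by rwa [map_sub, δ_δ, sub_zero]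
  have h4 : IsDeg k (a - δ b) := hk.sub ((IsDeg.δ hb).cast (by ring))
  have h5 : ∀ i, supp (δ (pst (φ i) (a - δ b))) = ∅ := fun i => supp_eq_empty.2 fun x => by
    rw [δ_pst]
    exact Van.of_imp (supp_eq_empty.1 h3 x) fun l hl => by rw [pst_val, hl, map_zero]
  have h6 : hcls a = ∑ i, s i • hcls (pst (φ i) (a - δ b)) := by
    have h7 : ∀ i ∈ Finset.univ, supp (δ (s i • pst (φ i) (a - δ b))) = ∅ :=
      fun i _ => cocycle_smul _ (h5 i)
    rw [← Finset.sum_congr rfl fun i _ => hcls_smul (s i) (h5 i), ← hcls_sum _ h7]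
    refine hcls_eq_of_cohom (c := b) (by
      rw [map_sum]
      exact supp_eq_empty.2 fun x => Submodule.sum_mem _ fun i hi => supp_eq_empty.1 (h7 i hi) x)
      (supp_eq_empty.2 fun x => ?_)
    obtain ⟨U, hU, h8⟩ := h1 x
    refine notMem_supp.2 ⟨U, hU, fun l hl => ?_⟩
    rw [sub_right_comm, Coch.sub_val, Pi.sub_apply, Coch.sum_val]
    exact sub_eq_zero.2 (h2 _ (h8 l hl)).2
  rw [h6]
  refine Submodule.sum_mem _ fun i _ => Submodule.smul_mem _ _ (Submodule.subset_span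
    ⟨hcls_mem_Lam (h5 i) fun x => ?_, hcls_isDeg fun l hl => by rw [pst_val, h4 l hl, map_zero]⟩)
  obtain ⟨U, hU, h8⟩ := h1 x
  exact ⟨U, hU, fun l hl => (h2 _ (h8 l hl)).1 i⟩

namespace ZLat

variable {X : Type} [TopologicalSpace X] [Nice X] [CompactSpace X] {d : ℤ} {β : BM X}

theorem intg_toH (β : BM X) (a : Hc X) : Loc.intg β (toH a) = β a :=
  congrArg β (toH_bijective.1 (by
    rw [toH_act, toH_cls Loc.one_mem_Zc, hcls_one, one_mul]))

theorem nondeg (h : Orb.Ori d β) {x : H X} (hx : ∀ y, Loc.intg β (y * x) = 0) : x = 0 :=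
  h.pd_bijective.1 (by
    rw [map_zero]
    exact LinearMap.ext fun a => (intg_toH _ a).symm.trans ((Loc.intg_cap β _ x).trans (hx _)))

theorem finDim (h : Orb.Ori d β) : FiniteDimensional ℂ (H X) :=
  Basis.linearEquiv_dual_iff_finiteDimensional.1 ⟨(LinearEquiv.ofBijective _ h.pd_bijective).trans
    (LinearEquiv.ofBijective (toH : Hc X →ₗ[ℂ] H X) toH_bijective).symm.dualMap⟩

theorem intg_comp (h : Orb.Ori d β) {k : ℤ} {x : H X} (hx : H.IsDeg k x) (y : H X) :
    Loc.intg β (y * x) = Loc.intg β (H.comp (d - k) y * x) := by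
  refine H.induction_deg (P := fun y => Loc.intg β (y * x) = Loc.intg β (H.comp (d - k) y * x)) y
    (by simp) (fun a b ha hb => by simp only [add_mul, map_add, ha, hb]) fun j => ?_
  by_cases hj : d - k = j
  · rw [hj, (H.isDeg_comp j y).comp_eq]
  · rw [(H.isDeg_comp j y).comp_ne hj, zero_mul, map_zero]
    exact Loc.intg_deg h.deg ((H.isDeg_comp j y).mul hx) (by omega)

theorem nondeg_deg (h : Orb.Ori d β) {k : ℤ} {x : H X} (hx : H.IsDeg k x)
    (h0 : ∀ y, H.IsDeg (d - k) y → Loc.intg β (y * x) = 0) : x = 0 :=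
  nondeg h fun y => (intg_comp h hx y).trans (h0 _ (H.isDeg_comp _ y))

theorem zero_of_span {S : Set (H X)} {x : H X} (h0 : ∀ y ∈ S, Loc.intg β (y * x) = 0) :
    ∀ y ∈ Submodule.span ℂ S, Loc.intg β (y * x) = 0 := fun _ hy =>
  Submodule.span_le (p := LinearMap.ker (Loc.intg β ∘ₗ LinearMap.mulRight ℂ x)) |>.2 h0 hy

theorem mem_of_uni (h2 : StUni) (h : OriZ d β) {k : ℤ} {x : H X} (hx : H.IsDeg k x)
    (h0 : ∀ y ∈ Lk X (d - k), Loc.intg β (y * x) ∈ ZZ) : x ∈ Lk X k :=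
  ⟨h2 X d β h x fun y hy => by
    rw [intg_comp h.ori hx]
    exact h0 _ ⟨Lam.comp _ hy, H.isDeg_comp _ y⟩, hx⟩

theorem fin_le (h1 : StInt) (h : OriZ d β) (k : ℤ) : Module.Finite ℤ (Lk X k) ∧
    Module.Free ℤ (Lk X k) ∧ finrank ℤ (Lk X k) ≤ finrank ℂ (H.deg X (d - k)) := by
  have := finDim h.ori
  obtain ⟨y, hy, hs, -⟩ := Submodule.exists_fun_fin_finrank_span_eq ℂ (Lk X (d - k) : Set (H X))
  choose z hz using fun (x : Lk X k) i =>
    mem_ZZ.1 (h1 X d β h _ ((Lam X).mul_mem (hy i).1 x.2.1))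
  let Φ : Lk X k →+ Fin _ → ℤ := AddMonoidHom.mk' z fun x x' => funext fun i =>
    Int.cast_injective (α := ℂ) (by
      rw [Pi.add_apply, Int.cast_add, ← hz, ← hz, ← hz, Submodule.coe_add, mul_add, map_add])
  have hΦ : Function.Injective Φ.toIntLinearMap := (injective_iff_map_eq_zero _).2 fun x hx => by
    refine Subtype.ext (nondeg_deg h.ori x.2.2 fun w hw => zero_of_span (S := range y) ?_ w ?_)
    · rintro _ ⟨i, rfl⟩
      rw [hz, show z x i = 0 from congrFun hx i, Int.cast_zero]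
    · rw [hs, span X]
      exact hw
  have h3 := Module.Finite.of_injective _ hΦ
  have h4 := hΦ.moduleIsTorsionFree _ (map_smul _)
  refine ⟨h3, inferInstance, (LinearMap.finrank_le_finrank_of_injective hΦ).trans (le_of_eq ?_)⟩
  rw [finrank_fin_fun, span X]

theorem span_basis {k : ℤ} {ι : Type} (e : Basis ι ℤ (Lk X k)) :
    Submodule.span ℂ (range fun i => (e i).1) = H.deg X k := by
  rw [← span X k]
  refine le_antisymm (Submodule.span_mono ?_) (Submodule.span_le.2 fun x hx => ?_)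
  · rintro _ ⟨i, rfl⟩
    exact (e i).2
  · have h1 : (Lk X k).subtype ⟨x, hx⟩ ∈ Submodule.map (Lk X k).subtype
        (Submodule.span ℤ (range e)) := Submodule.mem_map_of_mem (e.mem_span _)
    rw [Submodule.map_span, ← range_comp] at h1
    exact Submodule.span_subset_span ℤ ℂ _ h1

theorem rank_eq (h1 : StInt) (h : OriZ d β) (k : ℤ) :
    finrank ℤ (Lk X k) = finrank ℂ (H.deg X k) := by
  have key : ∀ k, finrank ℂ (H.deg X k) ≤ finrank ℤ (Lk X k) := fun k => by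
    obtain ⟨_, _, -⟩ := fin_le h1 h k
    rw [← span_basis (Module.finBasis ℤ (Lk X k))]
    exact (finrank_range_le_card _).trans (Fintype.card_fin _).le
  have h2 := (fin_le h1 h k).2.2
  have h3 := (fin_le h1 h (d - k)).2.2
  rw [sub_sub_cancel] at h3
  exact le_antisymm (h2.trans ((key _).trans h3)) (key k)

theorem ind_basis (h1 : StInt) (h : OriZ d β) {k : ℤ} {ι : Type} [Fintype ι]
    (e : Basis ι ℤ (Lk X k)) : LinearIndependent ℂ fun i => (e i).1 := by
  rw [linearIndependent_iff_card_eq_finrank_span, Set.finrank, span_basis, ← rank_eq h1 h,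
    finrank_eq_card_basis e]

theorem isLat (h1 : StInt) (h : OriZ d β) (k : ℤ) : IsLat X k := by
  obtain ⟨h2, h3, -⟩ := fin_le h1 h k
  refine ⟨h3, h2, finDim h.ori, rank_eq h1 h k, span X k, fun ι v hv => ?_⟩
  let e := Module.finBasis ℤ (Lk X k)
  have h4 := (linearIndependent_algebraMap_comp_iff (S := ℂ)).2
    (hv.map' e.equivFun.toLinearMap e.equivFun.ker)
  have h5 := h4.map' (Fintype.linearCombination ℂ fun i => (e i).1) (LinearMap.ker_eq_bot.2
    (linearIndependent_iff_injective_fintypeLinearCombination.1 (ind_basis h1 h e)))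
  refine (funext fun i => ?_ : _ = fun i => (v i).1) ▸ h5
  have h6 := congrArg Subtype.val (e.sum_equivFun (v i))
  rw [Submodule.coe_sum] at h6
  refine Eq.trans (Fintype.linearCombination_apply ℂ _ _) (Eq.trans
    (Finset.sum_congr rfl fun j _ => ?_) h6)
  exact Int.cast_smul_eq_zsmul ℂ _ _

theorem nondeg_mid {k : ℤ} (h : Orb.Ori (2 * k) β) {x : H X} (hx : H.IsDeg k x)
    (h0 : ∀ y, H.IsDeg k y → Loc.intg β (x * y) = 0) : x = 0 :=
  nondeg_deg h hx fun y hy => by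
    rw [show 2 * k - k = k by ring] at hy
    rw [hy.comm hx, map_smul, h0 y hy, smul_zero]

theorem rep {k : ℤ} (h : Orb.Ori (2 * k) β) (ψ : H X →ₗ[ℂ] ℂ) :
    ∃ x, H.IsDeg k x ∧ ∀ y, H.IsDeg k y → Loc.intg β (x * y) = ψ y := by
  have := finDim h
  let J : H.deg X k →ₗ[ℂ] Dual ℂ (H.deg X k) := ((LinearMap.mul ℂ (H X)).compr₂
    (Loc.intg β)).compl₁₂ (H.deg X k).subtype (H.deg X k).subtype
  have hJ : Function.Injective J := (injective_iff_map_eq_zero _).2 fun x hx =>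
    Subtype.ext (nondeg_mid h x.2 fun y hy => LinearMap.congr_fun hx ⟨y, hy⟩)
  obtain ⟨x, hx⟩ := (LinearMap.injective_iff_surjective_of_finrank_eq_finrank
    Subspace.dual_finrank_eq.symm).1 hJ (ψ ∘ₗ (H.deg X k).subtype)
  exact ⟨x, x.2, fun y hy => LinearMap.congr_fun hx ⟨y, hy⟩⟩

theorem rep_int (h2 : StUni) {k : ℤ} (h : OriZ (2 * k) β) (ψ : H X →ₗ[ℂ] ℂ)
    (hψ : ∀ y ∈ Lk X k, ψ y ∈ ZZ) :
    ∃ x ∈ Lk X k, ∀ y, H.IsDeg k y → Loc.intg β (x * y) = ψ y := by
  obtain ⟨x, hx, h3⟩ := rep h.ori ψ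
  refine ⟨x, mem_of_uni h2 h hx fun y hy => ?_, h3⟩
  rw [show 2 * k - k = k by ring] at hy
  rw [H.IsDeg.comm hy.2 hx, map_smul, h3 y hy.2, smul_eq_mul]
  refine ZZ.mul_mem ?_ (hψ y hy)
  rcases Int.even_or_odd (k * k) with e | e
  · rw [e.neg_one_zpow]
    exact ZZ.one_mem
  · rw [e.neg_one_zpow]
    exact ZZ.neg_mem ZZ.one_mem

theorem exists_form (h1 : StInt) (h2 : StUni) {k : ℤ} (h : OriZ (2 * k) β) :
    ∃ B, IsForm β k B ∧ Function.Bijective B ∧ (Even k → B.IsSymm) := by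
  choose z hz using fun x y : Lk X k => mem_ZZ.1 (h1 X _ β h _ ((Lam X).mul_mem x.2.1 y.2.1))
  let B : LinearMap.BilinForm ℤ (Lk X k) := LinearMap.mk₂ ℤ z
    (fun x x' y => Int.cast_injective (α := ℂ) (by
      rw [Int.cast_add, ← hz, ← hz, ← hz, Submodule.coe_add, add_mul, map_add]))
    (fun c x y => Int.cast_injective (α := ℂ) (by
      rw [smul_eq_mul, Int.cast_mul, ← hz, ← hz, Submodule.coe_smul, smul_mul_assoc, map_zsmul,
        zsmul_eq_mul]))
    (fun x y y' => Int.cast_injective (α := ℂ) (by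
      rw [Int.cast_add, ← hz, ← hz, ← hz, Submodule.coe_add, mul_add, map_add]))
    (fun c x y => Int.cast_injective (α := ℂ) (by
      rw [smul_eq_mul, Int.cast_mul, ← hz, ← hz, Submodule.coe_smul, mul_smul_comm, map_zsmul,
        zsmul_eq_mul]))
  have hB : IsForm β k B := fun x y => (hz x y).symm
  refine ⟨B, hB, ⟨(injective_iff_map_eq_zero _).2 fun x hx => Subtype.ext
    (nondeg_mid h.ori x.2.2 fun y hy => ?_), fun φ => ?_⟩, fun hk => ⟨fun x y =>
      Int.cast_injective (α := ℂ) (by rw [hB, hB, H.IsDeg.commute x.2.2 hk])⟩⟩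
  · rw [← H.mem_deg, ← span X k] at hy
    refine Submodule.span_le (p := LinearMap.ker (Loc.intg β ∘ₗ LinearMap.mulLeft ℂ x.1)) |>.2
      (fun w hw => ?_) hy
    change Loc.intg β (x.1 * w) = 0
    rw [← hB x ⟨w, hw⟩, hx, LinearMap.zero_apply, Int.cast_zero]
  · obtain ⟨_, _, -⟩ := fin_le h1 h k
    let e := Module.finBasis ℤ (Lk X k)
    obtain ⟨ψ, hψ⟩ := LinearMap.exists_extend ((Basis.span (ind_basis h1 h e)).constr ℂ
      fun i => (φ (e i) : ℂ))
    have h3 : ∀ i, ψ (e i).1 = φ (e i) := fun i => by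
      have h4 := LinearMap.congr_fun hψ (Basis.span (ind_basis h1 h e) i)
      rwa [Basis.constr_basis, LinearMap.comp_apply, Submodule.subtype_apply,
        Basis.span_apply] at h4
    have h5 : ∀ y : Lk X k, ψ y.1 = φ y := fun y => LinearMap.congr_fun (e.ext
      (f₁ := ψ.restrictScalars ℤ ∘ₗ (Lk X k).subtype)
      (f₂ := (Int.castAddHom ℂ).toIntLinearMap ∘ₗ φ) h3) y
    obtain ⟨x, hx, h6⟩ := rep_int h2 h ψ fun y hy => ⟨_, (h5 ⟨y, hy⟩).symm⟩
    exact ⟨⟨x, hx⟩, LinearMap.ext fun y => Int.cast_injective (α := ℂ) (by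
      rw [hB, ← h5]
      exact h6 y y.2.2)⟩

end ZLat

theorem lat_of (h1 : StInt) (h2 : StUni) : StLat := fun _ _ _ _ _ _ h =>
  ⟨isLat h1 h, fun _ _ hx h0 => mem_of_uni h2 h hx h0, fun _ hk => exists_form h1 h2 (hk ▸ h)⟩

theorem uniLk_of (h1 : StInt) (h2 : StUni) : StUniLk := fun X _ _ _ k β hk h =>
  ⟨span X k, fun _ hx y _ => congrArg (Loc.intg β) (H.IsDeg.commute hx hk y),
    fun _ hx _ hy => h1 X _ β h _ ((Lam X).mul_mem hx.1 hy.1),
    fun _ hx h0 => nondeg_mid h.ori hx h0, fun φ hφ => rep_int h2 h φ hφ⟩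

end Vale.Agent.P287Q.Zc
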