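import Vale.Agent.P287Q.Int.St

/-!
# P287, integral structure: the fundamental class of a complex manifold is an integral orientation
-/

namespace Vale.Agent.P287Q.Zc

open P291Z Set Topology Filter Module P269 P269.Orb

variable {X U : Type} [TopologicalSpace X] [TopologicalSpace U]

/-- Extension by zero of an integral cochain with compact support. -/
theorem Ori_ext [Nice X] {j : U → X} (hj : IsOpenEmbedding j) {a : Coch U} (ha : IsZ a)
    (hK : IsCompact (supp a)) : ∃ b, IsZ b ∧ IsCompact (supp b) ∧ supp b ⊆ j '' supp a ∧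
      (∀ u, pull j b - a ∈ Van u) ∧ ∀ k, IsDeg k a → IsDeg k b := by
  rcases isEmpty_or_nonempty U with h | h
  · exact ⟨0, .zero, by rw [supp_zero]; exact isCompact_empty,
      by rw [supp_zero]; exact empty_subset _, fun x => isEmptyElim x, fun _ _ _ _ => rfl⟩
  obtain ⟨N, h1, h2, h3⟩ := exists_compact_between (hK.image hj.continuous) hj.isOpen_range
    (image_subset_range _ _)
  have e : pull j (pull (Function.invFun j) a) = a := by
    rw [pull_pull, Function.invFun_comp hj.injective, pull_id]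
  have h4 : ∀ u, a ∈ Van u → pull (Function.invFun j) a ∈ Van (j u) := fun u hu =>
    van_of_pull hj (e.symm ▸ hu)
  have h5 : supp (cut N (pull (Function.invFun j) a)) ⊆ j '' supp a := fun x hx => by
    obtain ⟨h6, h7⟩ := supp_cut _ _ hx
    rw [h1.isClosed.closure_eq] at h6
    obtain ⟨u, rfl⟩ := h3 h6
    exact ⟨u, by_contra fun h => h4 u h h7, rfl⟩
  refine ⟨_, (ha.pull _).cut N, isCompact_supp_of_subset (hK.image hj.continuous) h5, h5,
    fun u => ?_, fun k hk => (hk.pull _).cut N⟩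
  by_cases hu : u ∈ supp a
  · have := Van.pull hj.continuous.continuousAt
      (cut_in (mem_interior_iff_mem_nhds.1 (h2 ⟨u, hu, rfl⟩)) (pull (Function.invFun j) a))
    rw [map_sub, e, ← neg_sub] at this
    exact neg_mem_iff.1 this
  · exact sub_mem (Van.pull hj.continuous.continuousAt (Van.cut (h4 u hu) N)) hu

theorem Ori_van {j : U → X} (hj : IsOpenEmbedding j) {a : Coch X} (hs : supp a ⊆ range j)
    (h : ∀ u, pull j a ∈ Van u) (x : X) : a ∈ Van x := fun hx => by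
  obtain ⟨u, rfl⟩ := hs hx
  exact van_of_pull hj (h u) hx

/-- Extension by zero of an integral cocycle with compact support. -/
theorem Ori_ext_Zc [Nice X] {j : U → X} (hj : IsOpenEmbedding j) {a : Coch U} (ha : IsZ a)
    (hc : a ∈ Zc U) : ∃ b ∈ Zc X, IsZ b ∧ supp b ⊆ j '' supp a ∧
      (∀ u, pull j b - a ∈ Van u) ∧ ∀ k, IsDeg k a → IsDeg k b := by
  obtain ⟨b, h1, h2, h3, h4, h5⟩ := Ori_ext hj ha hc.1
  refine ⟨b, ⟨h2, supp_eq_empty.2 (Ori_van hj
    ((supp_δ b).trans (h3.trans (image_subset_range _ _))) fun u => ?_)⟩, h1, h3, h4, h5⟩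
  have := add_mem (Van.δ (h4 u)) (supp_eq_empty.1 hc.2 u)
  rwa [map_sub, sub_add_cancel, δ_pull] at this

/-- An integral primitive on an open subset extends. -/
theorem Ori_prim [Nice X] {j : U → X} (hj : IsOpenEmbedding j) {a : Coch X} (hs : supp a ⊆ range j)
    {c : Coch U} (hc : IsZ c) (hK : IsCompact (supp c)) (e : ∀ u, pull j a - δ c ∈ Van u) :
    ∃ c', IsZ c' ∧ IsCompact (supp c') ∧ supp c' ⊆ range j ∧ ∀ x, a - δ c' ∈ Van x := by
  obtain ⟨b, h1, h2, h3, h4, -⟩ := Ori_ext hj hc hK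
  have h5 := h3.trans (image_subset_range _ _)
  refine ⟨b, h1, h2, h5, Ori_van hj
    ((supp_sub _ _).trans (union_subset hs ((supp_δ b).trans h5))) fun u => ?_⟩
  have := sub_mem (e u) (Van.δ (h4 u))
  rwa [map_sub, sub_sub_sub_cancel_right, δ_pull, ← map_sub] at this

theorem Ori_supp_zsmul (z : ℤ) (a : Coch X) : supp (z • a) ⊆ supp a := by
  rw [← Int.cast_smul_eq_zsmul ℂ]; exact supp_smul _ _

theorem Ori_van_zsmul (z : ℤ) {a : Coch X} {x : X} (h : a ∈ Van x) : z • a ∈ Van x :=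
  fun h' => h (Ori_supp_zsmul z a h')

theorem PtGenZ.zc {d : ℤ} {x : X} {b : Coch X} (h : PtGenZ d x b) : b ∈ Zc X := Zc_of_pt h.cyc h.pt

/-- Restriction of a local generator to an open subset. -/
theorem PtGenZ.pull [Nice X] {j : U → X} (hj : IsOpenEmbedding j) {d : ℤ} {x : U} {b : Coch X}
    (h : PtGenZ d (j x) b) : PtGenZ d x (pull j b) := by
  refine ⟨h.int.pull j, cocycle_pull hj.continuous h.cyc, fun y hy => hj.injective
    (h.pt (supp_pull hj.continuous b hy)), h.deg.pull j, fun O hO => ?_⟩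
  obtain ⟨W, hW, h1, h2⟩ := h.gen _ (hj.image_mem_nhds.2 hO)
  refine ⟨j ⁻¹' W, hj.continuous.continuousAt hW, fun y hy => ?_, fun a ha hz hs => ?_⟩
  · obtain ⟨z, hz, e⟩ := h1 hy
    exact hj.injective e ▸ hz
  · obtain ⟨a', h3, h4, h5, h6, -⟩ := Ori_ext_Zc hj hz ha
    obtain ⟨z, c, h7, h8, h9, k⟩ := h2 a' h3 h4 (h5.trans (image_subset_iff.2 hs))
    refine ⟨z, P291Z.pull j c, h7.pull j,
      isCompact_pull_open hj h8 (h9.trans (image_subset_range _ _)), fun y hy => ?_, fun y => ?_⟩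
    · obtain ⟨z, hz, e⟩ := h9 (supp_pull hj.continuous c hy)
      exact hj.injective e ▸ hz
    · have := sub_mem (Van.pull hj.continuous.continuousAt (k (j y))) (h6 y)
      rw [map_sub, map_sub, map_zsmul, ← δ_pull] at this
      exact (congrArg (· ∈ Van y) (by abel)).mp this

/-- Restriction of an integral orientation to an open subset. -/
theorem OriZ.res [Nice X] {d : ℤ} {β : BM X} (h : OriZ d β) {j : U → X} (hj : IsOpenEmbedding j) :
    OriZ d (res j β) := ⟨h.ori.res hj, fun x => by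
  obtain ⟨b, h1, h2⟩ := h.gen (j x)
  exact ⟨_, h1.pull hj, by rwa [ev_res hj β h1.zc (h1.pt.trans (by simp))]⟩⟩

/-- Transport of an integral orientation along a homeomorphism. -/
theorem OriZ.push [Nice X] [Nice U] {d : ℤ} {β : BM X} (h : OriZ d β) {e : X → U}
    (he : IsHomeomorph e) : OriZ d (push e β) := by
  have h1 := (he.homeomorph e).symm.isHomeomorph
  have h2 : e ∘ (he.homeomorph e).symm = id := funext (he.homeomorph e).apply_symm_apply
  rw [← push_res_homeo h1 β, push_push (IsPr.of_isHomeomorph h1) (IsPr.of_isHomeomorph he), h2,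
    push_id']
  exact h.res h1.isOpenEmbedding

variable {n : ℕ} {d : ℤ} {t : Coch (Fin n → ℂ)}

theorem GenZ.rad (ht : GenZ d t) (hs : supp t ⊆ {0}) (h0 : cls t ≠ 0) {r : ℝ} (hr : 0 < r) :
    ∃ c, IsZ c ∧ IsCompact (supp c) ∧ ∀ y, pull (rad r) t - t - δ c ∈ Van y := by
  have h1 := pull_open_Zc (isOpenEmbedding_rad hr) ht.zc
    (hs.trans (singleton_subset_iff.2 ⟨0, rad_zero⟩))
  obtain ⟨z, c, h2, h3, h4⟩ := ht.gen _ h1 (ht.int.pull _)
  have h5 : cls (pull (P291Z.rad r) t) = cls (z • t) := cls_eq_of_Bc ⟨c, h3, supp_eq_empty.2 h4⟩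
  rw [cls_pull_rad hr ht.zc.2 hs, ← Int.cast_smul_eq_zsmul ℂ, cls_smul _ ht.zc] at h5
  have h6 : (z : ℂ) = 1 := smul_left_injective ℂ h0 (h5.symm.trans (one_smul _ _).symm)
  rw [← Int.cast_smul_eq_zsmul ℂ, h6, one_smul] at h4
  exact ⟨c, h2, h3, h4⟩

/-- A generator on the model space gives a local generator in a chart. -/
theorem GenZ.chart [Nice X] (ht : GenZ d t) (hs : supp t ⊆ {0}) (h0 : cls t ≠ 0)
    {O : Set (Fin n → ℂ)} (hO : IsOpen O) (hz : 0 ∈ O) {j : O → X} (hj : IsOpenEmbedding j) :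
    ∃ b, PtGenZ d (j ⟨0, hz⟩) b ∧ ∀ u, pull j b - pull Subtype.val t ∈ Van u := by
  have hv := hO.isOpenEmbedding_subtypeVal
  obtain ⟨b, h1, h2, h3, h4, h5⟩ := Ori_ext_Zc hj (ht.int.pull Subtype.val)
    (pull_open_Zc hv ht.zc (hs.trans (singleton_subset_iff.2 ⟨⟨0, hz⟩, rfl⟩)))
  have h6 : supp b ⊆ {j ⟨0, hz⟩} := fun x hx => by
    obtain ⟨u, hu, rfl⟩ := h3 hx
    exact congrArg j (Subtype.ext (hs (supp_pull hv.continuous t hu)))
  refine ⟨b, ⟨h2, h1.2, h6, h5 d (ht.deg.pull _), fun N hN => ?_⟩, h4⟩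
  obtain ⟨r, hr, h7⟩ := Metric.nhds_basis_closedBall.mem_iff.1
    ((hv.image_mem_nhds (x := ⟨0, hz⟩)).2 (hj.continuous.continuousAt hN))
  choose ρ k1 k2 using fun v : Fin n → ℂ => h7 (mem_closedBall_zero_iff.2 (norm_rad_le hr v))
  have k3 : IsOpenEmbedding ρ := IsOpenEmbedding.of_comp ρ hv (by
    rw [show Subtype.val ∘ ρ = P291Z.rad r from funext k2]; exact isOpenEmbedding_rad hr)
  have k4 := hj.comp k3
  have k5 : j ⟨0, hz⟩ ∈ range (j ∘ ρ) := ⟨0, congrArg j (Subtype.ext ((k2 0).trans rad_zero))⟩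
  have k6 : range (j ∘ ρ) ⊆ N := range_subset_iff.2 k1
  refine ⟨_, k4.isOpen_range.mem_nhds k5, k6, fun a ha hz' hs' => ?_⟩
  obtain ⟨z, c, k7, k8, k9⟩ := ht.gen _ (pull_open_Zc k4 ha hs') (hz'.pull _)
  obtain ⟨c', l1, l2, l3⟩ := ht.rad hs h0 hr
  obtain ⟨e, l4, l5, l6, l7⟩ := Ori_prim k4 (a := a - z • b) ((supp_sub _ _).trans (union_subset hs'
    ((Ori_supp_zsmul z b).trans (h6.trans (singleton_subset_iff.2 k5))))) (k7.sub (l1.zsmul z))
    (isCompact_supp_of_subset (k8.union l2) ((supp_sub _ _).trans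
      (union_subset_union_right _ (Ori_supp_zsmul z c')))) fun v => by
      have l8 := Van.pull k3.continuous.continuousAt (h4 (ρ v))
      rw [map_sub, pull_pull, pull_pull, show Subtype.val ∘ ρ = P291Z.rad r from funext k2] at l8
      have := sub_mem (k9 v) (Ori_van_zsmul z (add_mem l8 (l3 v)))
      rw [map_sub, map_sub, map_zsmul, map_zsmul]
      refine (congrArg (· ∈ Van v) ?_).mp this
      simp only [smul_add, smul_sub]
      abel
  exact ⟨z, e, l4, l5, l6.trans k6, l7⟩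

/-- **Charts**: a class with the value one on the orientation cocycles is an integral orientation. -/
theorem oriZ_of_charts (h : StTau) [Nice X] {β : BM X} (ho : Orb.Ori (2 * n) β)
    (hc : ∀ x, ∃ (O : Set (Fin n → ℂ)) (hz : 0 ∈ O) (j : O → X), IsOpen O ∧ IsOpenEmbedding j ∧
      j ⟨0, hz⟩ = x ∧ ∀ a ∈ Zc X, supp a ⊆ {x} →
        Cohom {z | z.1 = 0} (pull j a) (pull Subtype.val (tau n)) → ev β a = 1) :
    OriZ (2 * n) β := ⟨ho, fun x => by
  obtain ⟨O, hz, j, h1, h2, rfl, h3⟩ := hc x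
  obtain ⟨t, h4, h5, h6⟩ := h n
  obtain ⟨b, h7, h8⟩ := h4.chart h5
    (by rw [cls_eq_of_cohom isCompact_singleton h6]; exact (isGen_tau n).ne) h1 hz h2
  obtain ⟨c, k1, k2⟩ := h6
  refine ⟨b, h7, h3 b h7.zc h7.pt ⟨pull Subtype.val c,
    fun z hz => k1 (supp_pull continuous_subtype_val c hz), supp_eq_empty.2 fun u => ?_⟩⟩
  have := add_mem (h8 u) (Van.pull continuous_subtype_val.continuousAt (supp_eq_empty.1 k2 u.1))
  rwa [map_sub, map_sub, ← δ_pull, sub_sub, sub_add_sub_cancel, ← sub_sub] at this⟩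

/-- The same for charts defined on the whole model space. -/
theorem oriZ_of_val (h : StTau) [Nice X] {β : BM X} (ho : Orb.Ori (2 * n) β)
    (hc : ∀ x, ∃ (O : Set (Fin n → ℂ)) (ψ : (Fin n → ℂ) → X), IsOpen O ∧ 0 ∈ O ∧
      IsOpenEmbedding (fun z : O => ψ z) ∧ ψ 0 = x ∧ Val β ψ 1) : OriZ (2 * n) β :=
  oriZ_of_charts h ho fun x => by
    obtain ⟨O, ψ, h1, h2, h3, rfl, h4⟩ := hc x
    refine ⟨O, h2, _, h1, h3, rfl, fun a k1 k2 ⟨b, k3, k4⟩ => ?_⟩
    rw [← one_mul (ev β a)]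
    refine h4 a 1 k1.2 k2 (LocCo.of_open h1 h2 locCo_tau (e := b)
      (fun z hz => Subtype.ext (k3 hz)) ?_)
    rw [pull_pull]
    exact supp_eq_empty.1 k4 _

/-- **The fundamental class is an integral orientation.** -/
theorem ori_of (h : StTau) : StOri := fun A W _ _ _ _ _ _ act S _ hF n hd => by
  refine oriZ_of_charts h hd.ori fun x => ?_
  obtain ⟨y, rfl⟩ := (isQuo_sp (act := act) (S := S)).surj x
  obtain ⟨O, φ, h1, h2⟩ := Holo.exists_isChart (hd.isMfd y) (hF.free y) rfl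
  obtain ⟨_, -, h3⟩ := hd.isFund
  have e : Quo.mk act (φ ⟨0, h1.zero_mem⟩) = y.mk := congrArg _ h2
  exact ⟨O, h1.zero_mem, _, h1.isOpen, h1.emb, e, e ▸ (h3 _ _ _ h1).2⟩

end Vale.Agent.P287Q.Zc
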