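import Vale.Agent.P287Q.Int.St

/-!
# P287, integral structure: integral Poincare duality
-/

namespace Vale.Agent.P287Q.Zc

open P291Z Set Topology Filter P269

/-- The complex numbers modulo the integers. -/
abbrev DD : Type := ℂ ⧸ ZZ.toAddSubgroup

/-- The projection. -/
noncomputable def mkD : ℂ →ₗ[ℤ] DD := (QuotientAddGroup.mk' ZZ.toAddSubgroup).toIntLinearMap

theorem mkD_eq_zero {z : ℂ} : mkD z = 0 ↔ z ∈ ZZ := QuotientAddGroup.eq_zero_iff z

theorem mkD_surj : Function.Surjective mkD := QuotientAddGroup.mk'_surjective _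

theorem baer_DD : Module.Baer ℤ DD := by
  let _ : DivisibleBy DD ℤ := divisibleByOfSMulRightSurj DD ℤ fun {n} hn y => by
    obtain ⟨z, rfl⟩ := mkD_surj y
    refine ⟨mkD (z / n), ?_⟩
    show n • mkD (z / n) = _
    rw [← map_smul, zsmul_eq_mul, mul_div_cancel₀ _ (Int.cast_ne_zero.2 hn)]
  exact Module.Baer.of_divisible DD

theorem exists_factor {C N : Type} [AddCommGroup C] [AddCommGroup N] (f : C →ₗ[ℤ] N)
    (g : C →ₗ[ℤ] DD) (h : ∀ c, f c = 0 → g c = 0) : ∃ φ : N →ₗ[ℤ] DD, ∀ c, φ (f c) = g c := by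
  obtain ⟨φ, hφ⟩ := baer_DD.extension_property ((LinearMap.ker f).liftQ f le_rfl)
    (LinearMap.ker_eq_bot.1 (Submodule.ker_liftQ_eq_bot _ _ _ le_rfl))
    ((LinearMap.ker f).liftQ g h)
  exact ⟨φ, fun c => LinearMap.congr_fun hφ (Submodule.Quotient.mk c)⟩

variable {X : Type} [TopologicalSpace X]

variable (X) in
/-- Functionals which kill the locally vanishing integer cochains. -/
def DualZ : Submodule ℤ (Coch X →ₗ[ℤ] DD) where
  carrier := {φ | ∀ a, IsZ a → (∀ x, a ∈ Van x) → φ a = 0}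
  zero_mem' := fun _ _ _ => rfl
  add_mem' := fun {φ ψ} h h' a h1 h2 => by rw [LinearMap.add_apply, h a h1 h2, h' a h1 h2, add_zero]
  smul_mem' := fun c φ h a h1 h2 => by rw [LinearMap.smul_apply, h a h1 h2, smul_zero]

/-- Operators which preserve integrality and do not increase supports. -/
structure Op (f : Coch X →ₗ[ℂ] Coch X) : Prop where
  int : ∀ a, IsZ a → IsZ (f a)
  van : ∀ x a, a ∈ Van x → f a ∈ Van x

theorem Op.supp {f : Coch X →ₗ[ℂ] Coch X} (h : Op f) (a : Coch X) : supp (f a) ⊆ supp a :=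
  fun x hx => by_contra fun h' => h.van x a h' hx

theorem Op.vanZ {f : Coch X →ₗ[ℂ] Coch X} (h : Op f) {x : X} {a : Coch X} (ha : a ∈ VanZ x) :
    f a ∈ VanZ x := by
  obtain ⟨b, h1, h2⟩ := vanZ_iff.1 ha
  exact vanZ_iff.2 ⟨f b, h.int b h1, by rw [← map_sub]; exact h.van x _ h2⟩

theorem op_δ : Op (δ : Coch X →ₗ[ℂ] _) := ⟨fun _ h => h.δ, fun _ _ => Van.δ⟩

theorem op_pd : Op (par ∘ₗ δ : Coch X →ₗ[ℂ] _) :=
  ⟨fun _ h => h.δ.par, fun _ _ h => Van.par (Van.δ h)⟩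

theorem op_cut (S : Set X) : Op (cut S) := ⟨fun _ h => h.cut S, fun _ _ h => Van.cut h S⟩

/-- The transpose. -/
noncomputable def dmZ {f : Coch X →ₗ[ℂ] Coch X} (h : Op f) : DualZ X →ₗ[ℤ] DualZ X where
  toFun φ := ⟨φ.1 ∘ₗ f.restrictScalars ℤ, fun a h1 h2 => φ.2 _ (h.int a h1) fun x => h.van x a (h2 x)⟩
  map_add' _ _ := rfl
  map_smul' _ _ := rfl

theorem dmZ_apply {f : Coch X →ₗ[ℂ] Coch X} (h : Op f) (φ : DualZ X) (a : Coch X) :
    (dmZ h φ).1 a = φ.1 (f a) := rfl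

/-- `φ` kills the integer cochains with support in `U`. -/
def KillsZ (φ : DualZ X) (U : Set X) : Prop := ∀ a, IsZ a → supp a ⊆ U → φ.1 a = 0

theorem KillsZ.dm {φ : DualZ X} {U : Set X} (h : KillsZ φ U) {f : Coch X →ₗ[ℂ] Coch X}
    (hf : Op f) : KillsZ (dmZ hf φ) U := fun a h1 h2 => h _ (hf.int a h1) ((hf.supp a).trans h2)

/-- Functionals which vanish near `x`. -/
def VanDZ (x : X) : Submodule ℤ (DualZ X) where
  carrier := {φ | ∃ U ∈ 𝓝 x, KillsZ φ U}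
  zero_mem' := ⟨univ, univ_mem, fun _ _ _ => rfl⟩
  add_mem' := by
    rintro φ ψ ⟨U, hU, h⟩ ⟨V, hV, h'⟩
    exact ⟨U ∩ V, inter_mem hU hV, fun a h1 h2 => by
      rw [Submodule.coe_add, LinearMap.add_apply, h a h1 (h2.trans inter_subset_left),
        h' a h1 (h2.trans inter_subset_right), add_zero]⟩
  smul_mem' := by
    rintro c φ ⟨U, hU, h⟩
    exact ⟨U, hU, fun a h1 h2 => by
      rw [Submodule.coe_smul, LinearMap.smul_apply, h a h1 h2, smul_zero]⟩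

variable (X) in
/-- Functionals which live in degree `k`. -/
def degDZ (k : ℤ) : Submodule ℤ (DualZ X) where
  carrier := {φ | ∀ a j, IsDeg j a → j ≠ k → φ.1 a = 0}
  zero_mem' := fun _ _ _ _ => rfl
  add_mem' := fun {φ ψ} h h' a j h1 h2 => by
    rw [Submodule.coe_add, LinearMap.add_apply, h a j h1 h2, h' a j h1 h2, add_zero]
  smul_mem' := fun c φ h a j h1 h2 => by
    rw [Submodule.coe_smul, LinearMap.smul_apply, h a j h1 h2, smul_zero]

theorem degDZ_comp {k : ℤ} {φ : DualZ X} (h : φ ∈ degDZ X k) (a : Coch X) :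
    φ.1 (comp k a) = φ.1 a :=
  a.induction_comp (P := fun b => φ.1 (comp k b) = φ.1 b) (by simp)
    (fun b c hb hc => by simp only [map_add, hb, hc]) fun j => by
      by_cases hj : j = k
      · rw [hj, (isDeg_comp k a).comp_eq]
      · rw [(isDeg_comp j a).comp_ne (Ne.symm hj), map_zero, h _ j (isDeg_comp j a) hj]

variable (X) in
/-- The dual complex. -/
noncomputable def duZ (n : ℤ) : Soft ℤ X (DualZ X) where
  δ := dmZ op_pd
  deg m := degDZ X (n - m)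
  Van := VanDZ
  cut S := dmZ (op_cut S)
  δ_deg m φ h a j h1 h2 := h _ (j + 1) h1.δ.par (by omega)
  δδ φ x := ⟨univ, univ_mem, fun a _ _ => by
    show φ.1 (par (δ (par (δ a)))) = 0
    rw [par_δ_par, δ_δ, neg_zero, map_zero]⟩
  δ_van _ _ := fun ⟨U, hU, h⟩ => ⟨U, hU, h.dm _⟩
  van_open _ := isOpen_iff_mem_nhds.2 fun _ ⟨U, hU, h⟩ =>
    mem_of_superset (eventually_mem_nhds_iff.2 hU) fun _ hy => ⟨U, hy, h⟩
  cut_deg S m φ h a j h1 h2 := h _ j (h1.cut S) h2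
  cut_van _ _ _ := fun ⟨U, hU, h⟩ => ⟨U, hU, h.dm _⟩
  cut_in S x φ hS := ⟨interior S, interior_mem_nhds.2 hS, fun a h1 h2 => by
    show φ.1 a - φ.1 (cut S a) = 0
    rw [← map_sub]
    refine φ.2 _ (h1.sub (h1.cut S)) fun y => ?_
    by_cases hy : y ∈ supp a
    · exact cut_in (mem_interior_iff_mem_nhds.1 (h2 hy)) a
    · exact (Van y).sub_mem hy (Van.cut hy S)⟩
  cut_out S x φ hS := ⟨interior Sᶜ, interior_mem_nhds.2 hS, fun a h1 h2 => by
    refine φ.2 _ (h1.cut S) fun y => ?_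
    by_cases hy : y ∈ supp a
    · exact cut_out (mem_interior_iff_mem_nhds.1 (h2 hy)) a
    · exact Van.cut hy S⟩

theorem duZ_δ (n : ℤ) (φ : DualZ X) (a : Coch X) : ((duZ X n).δ φ).1 a = φ.1 (par (δ a)) := rfl

variable (X) in
/-- Cochains with coefficients in the complex numbers modulo the integers. -/
noncomputable def coD : Soft ℤ X (Coch X) where
  δ := δ.restrictScalars ℤ
  deg m := (degS X m).restrictScalars ℤ
  Van := VanZ
  cut S := (cut S).restrictScalars ℤ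
  δ_deg _ _ h := IsDeg.δ h
  δδ a x := by
    show δ (δ a) ∈ _
    rw [δ_δ]
    exact zero_mem _
  δ_van _ _ h := op_δ.vanZ h
  van_open _ := isOpen_iff_mem_nhds.2 fun _ ⟨U, hU, h⟩ =>
    mem_of_superset (eventually_mem_nhds_iff.2 hU) fun _ hy => ⟨U, hy, h⟩
  cut_deg S _ _ h := IsDeg.cut h S
  cut_van S _ _ h := (op_cut S).vanZ h
  cut_in _ _ a hS := vanZ_of_van (cut_in hS a)
  cut_out _ _ a hS := vanZ_of_van (cut_out hS a)

/-- A functional which kills the integer cocycles with support in `U` is a coboundary on `U`. -/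
theorem exists_primZ {n m : ℤ} {φ : DualZ X} (hφ : φ ∈ (duZ X n).deg m) {U : Set X}
    (h : ∀ b, IsZ b → supp (δ b) = ∅ → supp b ⊆ U → φ.1 b = 0) :
    ∃ φ' ∈ (duZ X n).deg (m - 1), KillsZ (φ - (duZ X n).δ φ') U := by
  let C : Submodule ℤ (Coch X) := ⟨⟨⟨{a | IsZ a ∧ supp a ⊆ U}, fun ha hb =>
    ⟨ha.1.add hb.1, (supp_add _ _).trans (union_subset ha.2 hb.2)⟩⟩,
    ⟨.zero, by rw [supp_zero]; exact empty_subset _⟩⟩, fun k a ha => ⟨ha.1.zsmul k, by
      rw [← Int.cast_smul_eq_zsmul ℂ]; exact (supp_smul _ _).trans ha.2⟩⟩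
  let N := (NullC X).restrictScalars ℤ
  obtain ⟨g, hg⟩ := exists_factor (N.mkQ ∘ₗ (par ∘ₗ δ).restrictScalars ℤ ∘ₗ C.subtype)
    (φ.1 ∘ₗ C.subtype) fun b hb => h b.1 b.2.1 (supp_eq_empty.2 fun x => by
      have := Van.par (mem_NullC.1 ((Submodule.Quotient.mk_eq_zero N).1 hb) x)
      exact par_par (δ b.1) ▸ this) b.2.2
  refine ⟨⟨g ∘ₗ N.mkQ ∘ₗ (comp (n - (m - 1))).restrictScalars ℤ, fun a _ ha => ?_⟩,
    fun a j h1 h2 => ?_, fun b h4 h5 => ?_⟩
  · show g (N.mkQ (comp _ a)) = 0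
    rw [N.mkQ_apply, (Submodule.Quotient.mk_eq_zero N).2 (mem_NullC.2 fun x => Van.comp (ha x) _),
      map_zero]
  · show g (N.mkQ (comp _ a)) = 0
    rw [h1.comp_ne (Ne.symm h2), map_zero, map_zero]
  · rw [Submodule.coe_sub, LinearMap.sub_apply, duZ_δ, sub_eq_zero, ← degDZ_comp hφ b]
    refine (hg ⟨comp (n - m) b, h4.comp _, (supp_comp _ b).trans h5⟩).symm.trans ?_
    show g (N.mkQ (par (δ (comp (n - m) b)))) = g (N.mkQ (comp (n - (m - 1)) (par (δ b))))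
    rw [comp_par, ← comp_δ, show n - (m - 1) = n - m + 1 by ring]

theorem PtGenZ.prim {d : ℤ} {x : X} {b : Coch X} (h : PtGenZ d x b) [CompactSpace X] {φ : DualZ X}
    {m : ℤ} (hφ : φ ∈ (duZ X d).deg m) (hd : (duZ X d).δ φ ∈ VanDZ x) (ha : φ.1 b = 0) :
    ∃ φ' ∈ (duZ X d).deg (m - 1), φ - (duZ X d).δ φ' ∈ VanDZ x := by
  obtain ⟨U, hU, h1⟩ := hd
  obtain ⟨W, hW, -, h2⟩ := h.gen U hU
  obtain ⟨φ', h3, h4⟩ := exists_primZ hφ (U := W) fun a h5 h6 hs => by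
    obtain ⟨z, c, h7, -, h8, h9⟩ := h2 a (Zc_of_compact h6) h5 hs
    have h10 : φ.1 (δ c) = 0 := by
      have := h1 (par c) h7.par ((supp_par c).trans h8)
      rwa [duZ_δ, par_δ_par, map_neg, neg_eq_zero] at this
    rw [show a = a - z • b - δ c + z • b + δ c by abel, map_add, map_add,
      φ.2 _ ((h5.sub (h.int.zsmul z)).sub h7.δ) h9, map_smul, ha, h10, smul_zero, add_zero, add_zero]
  exact ⟨φ', h3, W, hW, h4⟩

theorem prim_of_local {R B K : Type} [CommRing R] [TopologicalSpace B] [AddCommGroup K] [Module R K]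
    (S : Soft R B K) [T3Space B] [CompactSpace B] {n : ℤ} {a : K}
    (hs : ∀ x, ∃ b ∈ S.deg (n - 1), a - S.δ b ∈ S.Van x)
    (hl : ∀ A, IsCompact A → S.ExactOn A (n - 1)) :
    ∃ b ∈ S.deg (n - 1), a - S.δ b ∈ S.VanOn univ := by
  have key : ∃ A', IsCompact A' ∧ univ ⊆ A' ∧ ∃ b ∈ S.deg (n - 1), a - S.δ b ∈ S.VanOn A' := by
    refine isCompact_univ.induction_on (p := fun s => ∃ A', IsCompact A' ∧ s ⊆ A' ∧
      ∃ b ∈ S.deg (n - 1), a - S.δ b ∈ S.VanOn A') ?_ ?_ ?_ ?_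
    · exact ⟨∅, isCompact_empty, subset_rfl, 0, Submodule.zero_mem _, fun _ h => h.elim⟩
    · rintro s t hst ⟨A', h1, h2, h3⟩
      exact ⟨A', h1, hst.trans h2, h3⟩
    · rintro s t ⟨A₁, c₁, s₁, b₁, h₁, e₁⟩ ⟨A₂, c₂, s₂, b₂, h₂, e₂⟩
      exact ⟨A₁ ∪ A₂, c₁.union c₂, union_subset_union s₁ s₂,
        S.union_prim h₁ h₂ e₁ e₂ (hl _ (c₁.inter c₂)) (Soft.sep_compact c₁ c₂)⟩
    · intro x _
      obtain ⟨b, hb, e⟩ := hs x
      obtain ⟨C, hC, hCc, hCs⟩ := exists_mem_nhds_isClosed_subset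
        ((S.van_open (a - S.δ b)).mem_nhds e)
      exact ⟨C, mem_nhdsWithin_of_mem_nhds hC, C, hCc.isCompact, subset_rfl, b, hb,
        fun y hy => hCs hy⟩
  obtain ⟨A', -, h1, b, hb, e⟩ := key
  exact ⟨b, hb, Soft.VanOn.mono e h1⟩

variable [Nice X] [CompactSpace X]

theorem killsZ_of_van {φ : DualZ X} (h : ∀ x, φ ∈ VanDZ x) : KillsZ φ univ := by
  have key : ∃ U, IsOpen U ∧ univ ⊆ U ∧ KillsZ φ U := by
    refine isCompact_univ.induction_on (p := fun s => ∃ U, IsOpen U ∧ s ⊆ U ∧ KillsZ φ U)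
      ?_ ?_ ?_ ?_
    · exact ⟨∅, isOpen_empty, subset_rfl, fun b h1 hb => φ.2 b h1 fun x hx => hb hx⟩
    · rintro s t hst ⟨U, h1, h2, h3⟩
      exact ⟨U, h1, hst.trans h2, h3⟩
    · rintro s t ⟨U, h1, h2, h3⟩ ⟨V, h1', h2', h3'⟩
      refine ⟨U ∪ V, h1.union h1', union_subset_union h2 h2', fun b hb hs => ?_⟩
      obtain ⟨K₁, K₂, c₁, c₂, s₁, s₂, e⟩ :=
        (isClosed_supp b).isCompact.binary_compact_cover h1 h1' hs
      obtain ⟨N, -, h5, h6⟩ := exists_cut_compact c₁ h1 s₁ b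
      have h7 : supp (b - cut N b) ⊆ K₂ := fun y hy => by_contra fun hy' => h6 y (by
        by_cases hb' : y ∈ supp b
        · exact Or.inl ((e ▸ hb' : y ∈ K₁ ∪ K₂).resolve_right hy')
        · exact Or.inr hb') hy
      rw [← sub_add_cancel b (cut N b), map_add, h3 _ (hb.cut N) (h5.trans inter_subset_left),
        h3' _ (hb.sub (hb.cut N)) (h7.trans s₂), add_zero]
    · intro x _
      obtain ⟨U, hU, h1⟩ := h x
      exact ⟨interior U, mem_nhdsWithin_of_mem_nhds (interior_mem_nhds.2 hU), interior U,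
        isOpen_interior, subset_rfl, fun a h2 h3 => h1 a h2 (h3.trans interior_subset)⟩
  obtain ⟨U, -, h1, h2⟩ := key
  exact fun a ha _ => h2 a ha ((subset_univ _).trans h1)

variable {d : ℤ} {β : BM X}

/-- The value of `β` modulo the integers. -/
noncomputable def evD (β : BM X) : (Zc X).restrictScalars ℤ →ₗ[ℤ] DD :=
  mkD ∘ₗ (β ∘ₗ clsL (Zc X) LinearMap.id fun _ h => h).toAddMonoidHom.toIntLinearMap

omit [Nice X] [CompactSpace X] in
theorem evD_apply (a : (Zc X).restrictScalars ℤ) : evD β a = mkD (β (cls a.1)) := rfl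

omit [Nice X] in
theorem deg_fix (hβ : BM.IsDeg d β) {Λ : Coch X →ₗ[ℤ] DD}
    (h : ∀ a, supp (δ a) = ∅ → Λ a = mkD (β (cls a))) : ∃ Λ' ∈ degDZ X d,
    (∀ a, supp (δ a) = ∅ → Λ'.1 a = mkD (β (cls a))) ∧ ∀ a, Λ'.1 a = Λ (comp d a) := by
  have e : ∀ a, supp (δ a) = ∅ → Λ (comp d a) = mkD (β (cls a)) := fun a ha => by
    rw [h _ (cocycle_comp ha d), ← Hc.comp_cls d (Zc_of_compact ha), hβ.comp]
  refine ⟨⟨Λ ∘ₗ (comp d).restrictScalars ℤ, fun a _ ha => (e a (supp_eq_empty.2 fun x =>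
    Van.δ (ha x))).trans ?_⟩, fun a j h1 h2 => ?_, e, fun _ => rfl⟩
  · rw [cls_of_mem_Bc (mem_Bc_of_null ha), map_zero, map_zero]
  · show Λ (comp d a) = 0
    rw [h1.comp_ne (Ne.symm h2), map_zero]

theorem OriZ.ev_int (h : OriZ d β) {a : Coch X} (ha : IsZ a) (hc : supp (δ a) = ∅) :
    β (cls a) ∈ ZZ := by
  obtain ⟨Λ₀, h0⟩ := exists_factor ((Zc X).restrictScalars ℤ).subtype (evD β) fun c hc => by
    rw [show c = 0 from Subtype.ext hc, map_zero]
  obtain ⟨Λ, h1, h2, -⟩ := deg_fix h.ori.deg (Λ := Λ₀) fun a ha => h0 ⟨a, Zc_of_compact ha⟩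
  have h3 : Λ ∈ (duZ X d).deg 0 := by
    show Λ ∈ degDZ X (d - 0)
    rwa [sub_zero]
  obtain ⟨φ, -, h4⟩ := prim_of_local (duZ X d) (n := 0) (a := Λ) (fun x => by
    obtain ⟨b, h4, h5⟩ := h.gen x
    refine h4.prim h3 ⟨univ, univ_mem, fun c _ _ => ?_⟩ ?_
    · rw [duZ_δ, ← neg_neg (par (δ c)), ← δ_par, map_neg, h2 _ (cocycle_δ _),
        cls_of_mem_Bc (δ_mem_Bc (isClosed_supp _).isCompact), map_zero, map_zero, neg_zero]
    · rw [h2 b h4.cyc, ← ev_eq, h5, mkD_eq_zero]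
      exact ZZ.one_mem)
    fun A hA => Orb.exactOn_low (duZ X d) h.ori.fin (k := -1) (fun x _ m hm φ h5 h6 => by
      obtain ⟨b, h4, -⟩ := h.gen x
      exact h4.prim h5 h6 (h5 b d h4.deg (by omega))) A (subset_univ _) hA _ (by omega)
  have h5 := killsZ_of_van (fun x => h4 x trivial) a ha (subset_univ _)
  rwa [Submodule.coe_sub, LinearMap.sub_apply, duZ_δ,
    φ.2 _ ha.δ.par fun x => Van.par (supp_eq_empty.1 hc x), sub_zero, h2 a hc, mkD_eq_zero] at h5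

/-- **The integral of an integral class is an integer.** -/
theorem stInt : StInt := by
  rintro X _ _ _ d β h _ ⟨a, h1, h2, rfl⟩
  rw [Loc.intg_hcls β h2, ev_eq]
  exact h.ev_int h1 h2

/-- The cap product with `Λ`. -/
noncomputable def capZ (Λ : Coch X →ₗ[ℤ] DD) (h : ∀ a, (∀ x, a ∈ Van x) → Λ a = 0) :
    Coch X →ₗ[ℤ] DualZ X where
  toFun a := ⟨Λ ∘ₗ (LinearMap.mulRight ℂ a).restrictScalars ℤ, fun b _ hb =>
    h _ fun x => Van.mul_right (hb x) a⟩
  map_add' a b := Subtype.ext (LinearMap.ext fun c => by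
    show Λ (c * (a + b)) = Λ (c * a) + Λ (c * b)
    rw [mul_add, map_add])
  map_smul' z a := Subtype.ext (LinearMap.ext fun c => by
    show Λ (c * (z • a)) = z • Λ (c * a)
    rw [mul_smul_comm, map_smul])

omit [Nice X] [CompactSpace X] in
theorem mul_vanZ {x : X} {a b : Coch X} (ha : a ∈ VanZ x) (hb : b ∈ VanZ x) : a * b ∈ VanZ x := by
  obtain ⟨a', h1, h2⟩ := vanZ_iff.1 ha
  obtain ⟨b', h3, h4⟩ := vanZ_iff.1 hb
  refine vanZ_iff.2 ⟨a' * b', h1.mul h3, ?_⟩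
  rw [show a * b - a' * b' = (a - a') * b + a' * (b - b') by noncomm_ring]
  exact (Van x).add_mem (Van.mul_right h2 b) (Van.mul_left h4 a')

theorem OriZ.mem_Lam (h : OriZ d β) {m : ℤ} {t : Coch X} (ht : supp (δ t) = ∅) (hm : IsDeg m t)
    (h0 : ∀ b, IsZ b → supp (δ b) = ∅ → β (cls (b * t)) ∈ ZZ) : hcls t ∈ Lam X := by
  let C : Submodule ℤ (Coch X) := ⟨⟨⟨{a | IsZ a}, IsZ.add⟩, IsZ.zero⟩, fun k _ ha => ha.zsmul k⟩
  obtain ⟨Λ₀, e0⟩ := exists_factor (((Zc X).restrictScalars ℤ).subtype.coprod C.subtype)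
    (evD β ∘ₗ LinearMap.fst ℤ _ _) fun c hc => by
      have e : c.1.1 = -c.2.1 := eq_neg_of_add_eq_zero_left hc
      exact mkD_eq_zero.2 (h.ev_int (e ▸ IsZ.neg c.2.2) c.1.2.2)
  obtain ⟨Λ, h1, h2, h3⟩ := deg_fix h.ori.deg (Λ := Λ₀) fun a ha => by
    simpa [evD_apply] using e0 (⟨a, Zc_of_compact ha⟩, 0)
  have hB : ∀ a ∈ Bc X, Λ.1 a = 0 := fun a ha => by
    rw [h2 a (Bc_le_Zc ha).2, cls_of_mem_Bc ha, map_zero, map_zero]
  have hN : ∀ a, (∀ x, a ∈ Van x) → Λ.1 a = 0 := fun a ha => hB a (mem_Bc_of_null ha)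
  have hZ : ∀ a, (∀ x, a ∈ VanZ x) → Λ.1 a = 0 := fun a ha => by
    rw [← sub_add_cancel a (rnd a), map_add, hN _ fun x => sub_rnd_van (ha x), zero_add, h3]
    simpa using e0 (0, ⟨_, (isZ_rnd a).comp d⟩)
  have cp : ∀ a b, (capZ Λ.1 hN a).1 b = Λ.1 (b * a) := fun _ _ => rfl
  have hM : (coD X).IsMap (duZ X d) 0 (capZ Λ.1 hN) :=
    ⟨fun m a ha b j h4 h5 => h1 _ (j + m) (h4.mul ha) (by omega), fun x a ha =>
      ⟨_, ((coD X).van_open a).mem_nhds ha, fun b h4 h5 => hZ _ fun y => by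
        by_cases hy : y ∈ supp b
        · exact mul_vanZ (h4.vanZ y) (h5 hy)
        · exact vanZ_of_van (Van.mul_right hy a)⟩, fun a x => ⟨univ, univ_mem, fun b _ _ => by
      show Λ.1 (par (δ b) * a) - Λ.1 (b * δ a) = 0
      rw [← map_sub, show par (δ b) * a - b * δ a = -δ (par b * a) by
        rw [δ_mul, δ_par, par_par]; noncomm_ring, map_neg,
        hB _ (δ_mem_Bc (isClosed_supp _).isCompact), neg_zero]⟩⟩
  have hdg : ∀ m a, IsDeg m a → capZ Λ.1 hN a ∈ (duZ X d).deg m := fun m a ha => by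
    have := hM.deg m a ha
    rwa [add_zero] at this
  have hex := Soft.cone_exactOn_of_locFin hM h.ori.fin (fun x _ m φ hφ hd => by
    obtain ⟨b, h4, h5⟩ := h.gen x
    obtain ⟨z, hz, hz'⟩ : ∃ z : ℂ, mkD z = φ.1 b ∧ IsDeg m (z • (1 : Coch X)) := by
      by_cases e : m = 0
      · obtain ⟨z, hz⟩ := mkD_surj (φ.1 b)
        exact ⟨z, hz, e ▸ isDeg_one.smul z⟩
      · exact ⟨0, by rw [map_zero, hφ b d h4.deg (by omega)], by
          rw [zero_smul]; exact isDeg_zero _⟩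
    have h6 : (coD X).δ (z • 1) = 0 := by
      show δ (z • (1 : Coch X)) = 0
      rw [map_smul, δ_one_eq_zero, smul_zero]
    obtain ⟨φ', h7, h8⟩ := h4.prim (Submodule.sub_mem _ hφ (hdg m _ hz')) (by
      have := hM.comm (z • 1) x
      rw [h6, map_zero, sub_zero] at this
      rw [map_sub]
      exact (VanDZ x).sub_mem (hd x rfl) this) (by
      rw [Submodule.coe_sub, LinearMap.sub_apply, cp, mul_smul_comm, mul_one,
        h2 _ (cocycle_smul z h4.cyc), cls_smul z (Zc_of_compact h4.cyc), map_smul, ← ev_eq, h5,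
        smul_eq_mul, mul_one, hz, sub_self])
    refine ⟨z • 1, hz'.cast (sub_zero m).symm, ?_, φ', h7, ?_⟩
    · rw [h6]; exact zero_mem _
    · rintro _ rfl
      exact h8) (fun x _ m a ha hd φ _ e => by
    obtain ⟨b, h4, h5⟩ := h.gen x
    obtain ⟨U, hU, h6⟩ := e x rfl
    have h7 : coneOp x (δ a) ∈ VanZ x := by
      obtain ⟨i, h7, h8⟩ := vanZ_iff.1 (hd x rfl)
      exact vanZ_iff.2 ⟨_, h7.coneOp x, by rw [← map_sub]; exact Van.coneOp h8⟩
    have h8 := h6 b h4.int (h4.pt.trans (singleton_subset_iff.2 (mem_of_mem_nhds hU)))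
    rw [Submodule.coe_sub, LinearMap.sub_apply, duZ_δ, cp,
      φ.2 _ h4.int.δ.par fun y => Van.par (supp_eq_empty.1 h4.cyc y), sub_zero, coneOp_δ x a,
      mul_add, mul_add, map_add, map_add, hZ _ fun y => by
        by_cases hy : y ∈ supp b
        · exact mul_vanZ (h4.int.vanZ y) ((h4.pt hy).symm ▸ h7)
        · exact vanZ_of_van (Van.mul_right hy _),
      hB _ (Zc.mul_cobound (c := coneOp x a) (Zc_of_compact h4.cyc) fun y _ => by
        rw [sub_self]; exact zero_mem _), zero_add, zero_add, mul_smul_comm, mul_one,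
      h2 _ (cocycle_smul _ h4.cyc), cls_smul _ (Zc_of_compact h4.cyc), map_smul, ← ev_eq, h5,
      smul_eq_mul, mul_one, mkD_eq_zero] at h8
    refine ⟨coneOp x a, coneOp_deg x ha, ?_⟩
    intro y hy
    rw [show y = x from hy]
    show a - δ (coneOp x a) ∈ VanZ x
    have := (VanZ x).add_mem h7 ((IsZ.one.smul h8).vanZ x)
    convert this using 1
    exact sub_eq_of_eq_add ((coneOp_δ x a).trans (add_right_comm _ _ _))) univ subset_rfl isCompact_univ
  obtain ⟨φ', h4, h5⟩ := exists_primZ (hdg m t hm) (U := univ) fun b h6 h7 _ => by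
    rw [cp, h2 _ (cocycle_mul h7 ht), mkD_eq_zero]
    exact h0 b h6 h7
  obtain ⟨a', -, h6⟩ := Soft.injOn_of_cone hM (n := m) (hex _) t (hm.cast (sub_zero m).symm)
    (fun x _ => vanZ_of_van (supp_eq_empty.1 ht x)) φ' h4 fun x _ => ⟨univ, univ_mem, h5⟩
  have h7 : supp (δ (t - δ a')) = ∅ := cocycle_sub ht (cocycle_δ a')
  rw [hcls_eq_of_cohom (c := a') h7 (by rw [sub_sub_cancel, sub_self, supp_zero])]
  exact hcls_mem_Lam h7 fun x => h6 x trivial

/-- **Integral Poincare duality.** -/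
theorem stUni : StUni := by
  intro X _ _ _ d β h x hx
  obtain ⟨t, ht, rfl⟩ := hcls_surj x
  obtain ⟨N, hN⟩ := H.exists_sum_comp (hcls t)
  rw [← hN N le_rfl]
  refine (Lam X).sum_mem fun m _ => ?_
  rw [H.comp_hcls _ ht]
  refine h.mem_Lam (cocycle_comp ht m) (isDeg_comp m t) fun b h1 h2 => ?_
  have h3 := cocycle_comp h2 (d - m)
  have h4 := hx _ ⟨_, h1.comp (d - m), h3, rfl⟩
  have e1 := comp_mul_right (isDeg_comp m t) (d - m) b
  have e2 := comp_mul_left (isDeg_comp (d - m) b) m t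
  rw [sub_add_cancel] at e1 e2
  rwa [← hcls_mul h3 ht, Loc.intg_hcls β (cocycle_mul h3 ht), ev_eq, ← h.ori.deg.comp,
    Hc.comp_cls d (Zc_of_compact (cocycle_mul h3 ht)), e2, ← e1,
    ← Hc.comp_cls d (Zc_of_compact (cocycle_mul h2 (cocycle_comp ht m))), h.ori.deg.comp] at h4

end Vale.Agent.P287Q.Zc
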