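import Vale.Agent.P287Q.Int.St

/-!
# P287, integral structure: the orientation cocycle of a complex vector space is a generator
-/

namespace Vale.Agent.P287Q.Zc

open P291Z Set Topology Filter

variable {X Y : Type} [TopologicalSpace X] [TopologicalSpace Y]

theorem GenZ.pull {d : ℤ} {b : Coch Y} (h : GenZ d b) {f : X → Y} (hf : IsHomeomorph f) :
    GenZ d (pull f b) := by
  obtain ⟨e, rfl⟩ := isHomeomorph_iff_exists_homeomorph.1 hf
  refine ⟨h.int.pull _, (IsPr.of_homeomorph e).pull_Zc h.zc, h.deg.pull _, fun a ha hz => ?_⟩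
  obtain ⟨z, c, h1, h2, h3⟩ := h.gen _ ((IsPr.of_homeomorph e.symm).pull_Zc ha) (hz.pull _)
  refine ⟨z, P291Z.pull e c, h1.pull _, (IsPr.of_homeomorph e).isCompact_pull h2, fun y => ?_⟩
  have := Van.pull e.continuous.continuousAt (h3 (e y))
  rwa [map_sub, map_sub, map_zsmul, ← δ_pull, pull_pull, e.symm_comp_self, pull_id] at this

theorem GenZ.neg {d : ℤ} {b : Coch X} (h : GenZ d b) : GenZ d (-b) := by
  refine ⟨h.int.neg, (Zc X).neg_mem h.zc, h.deg.neg, fun a ha hz => ?_⟩
  obtain ⟨z, c, h1, h2, h3⟩ := h.gen a ha hz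
  exact ⟨-z, c, h1, h2, fun y => by rw [neg_smul_neg]; exact h3 y⟩

theorem GenZ.cast {d d' : ℤ} {b : Coch X} (h : GenZ d b) (e : d = d') : GenZ d' b := e ▸ h

theorem genZ_one [Unique X] : GenZ 0 (1 : Coch X) := by
  refine ⟨.one, Zc_of_compact cocycle_one, isDeg_one, fun a ha hz => ?_⟩
  obtain ⟨z, e⟩ := mem_ZZ.1 (hz [default])
  refine ⟨z, coneOp default a, hz.coneOp _, (toFinite _).isCompact, fun y => ?_⟩
  have := local_cocycle (supp_eq_empty.1 ha.2 (default : X))
  rw [e, Int.cast_smul_eq_zsmul] at this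
  rwa [Subsingleton.elim y default]

/-- The integral generator on the complex line. -/
noncomputable def tauC : Coch ℂ :=
  -(pull Complex.re (δ stp) * pull (fun z : ℂ => -z.im) (δ stp))

theorem tauC_step (h : StStep) [Nice Y] {d : ℤ} {b : Coch Y} (hb : GenZ d b) :
    GenZ (d + 2) (pull Prod.fst tauC * pull Prod.snd b : Coch (ℂ × Y)) := by
  have h1 : IsHomeomorph fun p : ℂ × Y => (p.1.re, (-p.1.im, p.2)) :=
    isHomeomorph_iff_exists_inverse.2 ⟨by fun_prop, fun q => (q.1 - q.2.1 * Complex.I, q.2.2),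
      fun p => Prod.ext (Complex.ext (by simp) (by simp)) rfl, fun q => by simp, by fun_prop⟩
  have := ((h _ _ _ (h _ _ _ hb)).pull h1).neg.cast (d' := d + 2) (by ring)
  simp only [map_mul, pull_pull] at this
  rw [tauC, map_neg, map_mul, pull_pull, pull_pull, neg_mul, mul_assoc]
  exact this

theorem tauC_pow (h : StStep) (r : ℕ) : GenZ (2 * r) (powC tauC r) := by
  induction r with
  | zero => rw [powC_zero]; exact genZ_one.cast (by simp)
  | succ r ih =>
    have := ((tauC_step h ih).pull (isHomeomorph_cons r)).cast (d' := 2 * (r + 1 : ℕ))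
      (by push_cast; ring)
    rw [map_mul, pull_pull, pull_pull] at this
    rw [powC_succ]
    exact this

theorem tauC_cyc : supp (δ tauC) = ∅ := by
  rw [tauC, map_neg, supp_neg]
  exact cocycle_mul (cocycle_pull (by fun_prop) (cocycle_δ _))
    (cocycle_pull (by fun_prop) (cocycle_δ _))

theorem tauC_supp : supp tauC ⊆ {0} := fun z hz => by
  rw [tauC, supp_neg] at hz
  have h1 := supp_δ_stp (supp_pull Complex.continuous_re _ (supp_mul _ _ hz).1)
  have h2 := supp_δ_stp (supp_pull Complex.continuous_im.neg _ (supp_mul _ _ hz).2)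
  exact Complex.ext h1 (neg_eq_zero.1 h2)

theorem tau_log_div {u v : ℂ} (hu : u ≠ 0) (hv : v ≠ 0) (h : |v.arg - u.arg| < Real.pi) :
    Complex.log (v / u) = Complex.log v - Complex.log u := by
  have h1 := abs_lt.1 h
  rw [← Complex.log_exp (x := Complex.log v - Complex.log u), Complex.exp_sub,
    Complex.exp_log hu, Complex.exp_log hv]
  · rw [Complex.sub_im, Complex.log_im, Complex.log_im]; exact h1.1
  · rw [Complex.sub_im, Complex.log_im, Complex.log_im]; exact h1.2.le

theorem tau_log_neg {u : ℂ} (hu : u.re < 0) : Complex.log u = Complex.log (-u) -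
    Real.pi * Complex.I + 2 * Real.pi * Complex.I * if -u.im ≤ 0 then 1 else 0 := by
  rw [Complex.log, Complex.log, norm_neg]
  split_ifs with h
  · rw [Complex.arg_neg_eq_arg_sub_pi_iff.2
      ((neg_nonpos.1 h).lt_or_eq.imp_right fun e => ⟨e.symm, hu⟩)]
    push_cast
    ring
  · rw [Complex.arg_neg_eq_arg_add_pi_iff.2 (Or.inl (by linarith))]
    push_cast
    ring

theorem tauC_cohom : Cohom {0} tauC (δ wind) := by
  refine ⟨δ (fn fun z => Complex.log z / (2 * Real.pi * Complex.I)) - wind -
    pull Complex.re stp * pull (fun z : ℂ => -z.im) (δ stp), fun z hz => by_contra fun h => ?_, ?_⟩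
  · have hπ : (Real.pi : ℂ) ≠ 0 := Complex.ofReal_ne_zero.2 Real.pi_ne_zero
    have d0 : IsDeg ((0 : ℕ) : ℤ) (pull Complex.re stp) := (isDeg_fn _).pull _
    have d1 : IsDeg 1 (pull (fun z : ℂ => -z.im) (δ stp)) := (isDeg_fn _).δ.pull _
    by_cases hs : z ∈ Complex.slitPlane
    · refine (Van z).sub_mem ?_ ?_ hz
      · have h1 : ∀ᶠ w in 𝓝 z, |w.arg - z.arg| < Real.pi / 2 ∧ w ≠ 0 :=
          ((Metric.tendsto_nhds.1 (Complex.continuousAt_arg hs) _ Real.pi_div_two_pos).mono
            fun w hw => by rwa [Real.dist_eq] at hw).and (compl_singleton_mem_nhds h)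
        refine IsDeg.van_one ((isDeg_fn _).δ.sub isDeg_wind) h1 fun u hu v hv => ?_
        have h2 := abs_lt.1 hu.1
        have h3 := abs_lt.1 hv.1
        rw [Coch.sub_val, Pi.sub_apply, δ_val_pair, fn_val, fn_val, wind_val,
          tau_log_div hu.2 hv.2 (abs_lt.2 ⟨by linarith, by linarith⟩)]
        ring
      · rcases hs with hs | hs
        · refine Van.mul_right (Van.pull Complex.continuous_re.continuousAt (fn_van.2 ?_)) _
          filter_upwards [Ioi_mem_nhds hs] with y hy
          exact if_neg (not_le.2 hy)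
        · exact Van.mul_left (Van.pull Complex.continuous_im.neg.continuousAt fun e =>
            hs (neg_eq_zero.1 (supp_δ_stp e))) _
    · have h1 : z.re < 0 := by
        rw [Complex.mem_slitPlane_iff, not_or, not_lt, not_not] at hs
        exact hs.1.lt_of_ne fun e => h (Complex.ext e hs.2)
      refine IsDeg.van_one (((isDeg_fn _).δ.sub isDeg_wind).sub (d0.mul d1))
        ((isOpen_lt Complex.continuous_re continuous_const).mem_nhds h1) (fun u hu v hv => ?_) hz
      have hu' : u.re < 0 := hu
      have hv' : v.re < 0 := hv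
      have h2 := abs_lt.1 (Complex.abs_arg_lt_pi_div_two_iff.2 (Or.inl (b := -u = 0)
        (show 0 < (-u).re by simpa using hu')))
      have h3 := abs_lt.1 (Complex.abs_arg_lt_pi_div_two_iff.2 (Or.inl (b := -v = 0)
        (show 0 < (-v).re by simpa using hv')))
      have e1 : (pull Complex.re stp).1 [u] = 1 := if_pos hu'.le
      have e2 : (pull (fun z : ℂ => -z.im) (δ stp)).1 [u, v] =
          (if -v.im ≤ 0 then 1 else 0) - if -u.im ≤ 0 then 1 else 0 := δ_val_pair stp _ _
      rw [Coch.sub_val, Pi.sub_apply, Coch.sub_val, Pi.sub_apply, δ_val_pair, fn_val, fn_val,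
        wind_val, mul_val_of_isDeg d0 _ _ (by simp), ← neg_div_neg_eq v u,
        tau_log_div (neg_ne_zero.2 fun e => by simp [e] at hu')
          (neg_ne_zero.2 fun e => by simp [e] at hv') (abs_lt.2 ⟨by linarith, by linarith⟩),
        tau_log_neg hu', tau_log_neg hv']
      change _ - (pull Complex.re stp).1 [u] * (pull (fun z : ℂ => -z.im) (δ stp)).1 [u, v] = 0
      rw [e1, e2]
      field_simp
      ring
  · rw [map_sub, map_sub, δ_δ, δ_mul, δ_pull, δ_pull, δ_δ, map_zero, mul_zero, add_zero, tauC]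
    rw [show ∀ a b : Coch ℂ, -a - b - (0 - b - a) = 0 from fun _ _ => by abel, supp_zero]

theorem tau_of (h : StStep) : StTau := fun r => by
  have hc : ∀ i : Fin r, Continuous fun z : Fin r → ℂ => z i := continuous_apply
  refine ⟨powC tauC r, tauC_pow h r, fun z hz => funext fun i => tauC_supp (supp_powC _ _ hz i),
    (Fl.cohom_prod (fun i => tauC_cohom.pull (hc i)) (fun i => cocycle_pull (hc i) tauC_cyc)
      (fun i => cocycle_pull (hc i) (cocycle_δ _))
      (fun i => (supp_pull (hc i) _).trans (preimage_mono tauC_supp))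
      fun i => (supp_pull (hc i) _).trans (preimage_mono supp_δ_wind)).mono
      fun z hz => funext fun i => mem_iInter.1 hz i⟩

end Vale.Agent.P287Q.Zc
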