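import Vale.Agent.P287Q.Int.TopA
import Vale.Agent.P287Q.Hb.Defs

/-!
# P287, integral structure: from a correspondence to the labelling
-/

namespace Vale.Agent.P287Q.Zc

open P291Z P269 P269.Coh P269.Mono Module Function P287Q.Lat Hb
open scoped ComplexConjugate

/-- The integral structure of a compact complex manifold. -/
structure PZ (Y : PS) : Prop where
  int : ∀ c ∈ Lam Y.X, Y.J c ∈ ZZ
  uni : ∀ x, (∀ y ∈ Lam Y.X, Y.J (y * x) ∈ ZZ) → x ∈ Lam Y.X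
  lat : ∀ k, IsLat Y.X k
  form : ∃ B : LinearMap.BilinForm ℤ (Lk Y.X Y.n), (∀ x y, (B x y : ℂ) = Y.J (x.1 * y.1)) ∧
    Bijective B
  mid : Even Y.n → Uni ((LinearMap.mul ℂ (H Y.X)).compr₂ Y.J) (H.deg Y.X Y.n) (Lk Y.X Y.n)

theorem cj_of_Lam {X : Type} [TopologicalSpace X] {c : H X} (hc : c ∈ Lam X) : cj c = c := by
  obtain ⟨a, h1, h2, rfl⟩ := hc
  rw [cj_hcls h2]
  congr 1
  refine Coch.ext fun l => ?_
  obtain ⟨k, hk⟩ := mem_ZZ.1 (h1 l)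
  change conj (a.1 l) = a.1 l
  rw [hk, map_intCast]

variable {X Y S W : PS}

theorem PZ.push (hX : PZ X) (hY : PZ Y) (f : C(X.X, Y.X)) {a : H X.X} (ha : a ∈ Lam X.X) :
    PS.push f a ∈ Lam Y.X := hY.uni _ fun y hy => by
  rw [PS.J_mul_push]
  exact hX.int _ ((Lam _).mul_mem (Lam.map f hy) ha)

theorem PZ.bij (h : PZ Y) {k : ℤ} (hk : Y.n = k) {B : LinearMap.BilinForm ℤ (Lk Y.X k)}
    (hB : ∀ x y, (B x y : ℂ) = Y.J (x.1 * y.1)) : Bijective B := by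
  subst hk
  obtain ⟨B', h1, h2⟩ := h.form
  rwa [show B = B' from LinearMap.ext₂ fun x y => by exact_mod_cast (hB x y).trans (h1 x y).symm]

theorem J_comm {k : ℤ} {a : H Y.X} (ha : H.IsDeg (2 * k) a) (b : H Y.X) :
    Y.J (b * a) = Y.J (a * b) := by
  rw [PS.A1.J_symm, parH_of_deg ha, Int.negOnePow_two_mul]
  simp

/-- **The last step.** -/
theorem top (zX : PZ X) (zS : PZ S) (zW : PZ W) (nX : X.n = 4) (nS : S.n = 2)
    {B : LinearMap.BilinForm ℤ (Lk X.X 4)} (hB : ∀ x y, (B x y : ℂ) = X.J (x.1 * y.1))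
    (sB : Sig B 21 2) {η : Lk X.X 4} (hη : B η η = 3) {σ : H X.X} (hσ : H.IsDeg 4 σ)
    (hησ : X.J (σ * η.1) = 0) (hc : ∀ x : Lk X.X 4, X.J (σ * x.1) = 0 → Even (B x x - B x η))
    (hpos : ∀ x : Lk X.X 4, X.J (σ * x.1) = 0 → x ≠ 0 → 0 < B x x)
    {C : LinearMap.BilinForm ℤ (Lk S.X 2)} (hC : ∀ x y, (C x y : ℂ) = S.J (x.1 * y.1))
    {σ' : H S.X} (hσ' : H.IsDeg 2 σ') {M : Submodule ℤ (Lk S.X 2)} (uM : Bijective (C.restrict M))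
    {n : ℕ} (hn : n ≤ 19) (sM : Sig (C.restrict M) 3 n)
    (hM : ∀ x, (∀ a : Lk S.X 2, S.J (σ' * a.1) = 0 → C a x = 0) → x ∈ M)
    (p : C(W.X, X.X)) (hp : ∀ x, W.J (H.map p x) = X.J x) (φ : H S.X →ₗ[ℂ] H W.X)
    (φ0 : ∀ y ∈ Lk S.X 2, φ y ∈ Lam W.X)
    (φ1 : ∀ y, H.IsDeg 2 y → W.J (φ σ' * φ y) = -S.J (σ' * y)) (φ2 : H.map p σ = φ σ') :
    ∃ v : Lk X.X 4, X.J (σ * v.1) = 0 ∧ Sat (Submodule.span ℤ {η, v}) ∧
      Adm (3 * B v v - B v η ^ 2) ∧ (6 < 3 * B v v - B v η ^ 2 ∨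
        ∀ x : Lk X.X 4, X.J (σ * x.1) = 0 → x ∈ Submodule.span ℤ {η, v}) := by
  have := (zX.lat 4).free
  have := (zX.lat 4).fin
  have := (zS.lat 2).free
  have := (zS.lat 2).fin
  have u1 := zX.mid (by rw [nX]; decide)
  have u2 := zS.mid (by rw [nS]; decide)
  rw [nX] at u1
  rw [nS] at u2
  refine top_alg u1 u2 hσ hσ' hB (zX.bij nX hB) sB hη hησ hc hpos hC uM hn sM hM
    (((LinearMap.mul ℂ (H W.X)).compr₂ W.J).compl₁₂ (pl p) φ)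
    (fun x hx y hy => zW.int _ ((Lam _).mul_mem (Lam.map p hx.1) (φ0 y hy))) (fun y hy => ?_)
    fun x _ => ?_
  · change W.J (H.map p σ * φ y) = -S.J (σ' * y)
    rw [φ2, φ1 y hy]
  · change W.J (H.map p x * φ σ') = X.J (σ * x)
    rw [← φ2, ← map_mul, hp, J_comm (k := 2) hσ]

section hodge

variable {T : ℤ → ℤ → Submodule ℂ (H Y.X)} (g : HG Y T)
include g

theorem hg_J {p q : ℤ} {a : H Y.X} (ha : a ∈ T p q) (h : p ≠ Y.n ∨ q ≠ Y.n) : Y.J a = 0 := by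
  by_cases h1 : p + q = 2 * Y.n
  · rw [g.out p q (by omega)] at ha
    rw [(Submodule.mem_bot ℂ).1 ha, map_zero]
  · exact Y.pd.deg _ h1 _ (g.deg p q a ha)

theorem hg_deg {k : ℤ} {K : Submodule ℂ (H Y.X)} (hK : ∀ p q, p + q = k → T p q ≤ K) {x : H Y.X}
    (hx : H.IsDeg k x) : x ∈ K := by
  have h : ∀ y ∈ ⨆ i : ℤ × ℤ, T i.1 i.2, H.comp k y ∈ K := fun y hy => by
    refine Submodule.iSup_induction (motive := fun y => H.comp k y ∈ K) _ hy (fun i y hy => ?_)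
      (by rw [map_zero]; exact K.zero_mem) fun a b ha hb => by rw [map_add]; exact K.add_mem ha hb
    by_cases e : i.1 + i.2 = k
    · rw [H.IsDeg.comp_eq (e ▸ g.deg _ _ y hy)]
      exact hK _ _ e hy
    · rw [(g.deg _ _ y hy).comp_ne (Ne.symm e)]
      exact K.zero_mem
  exact hx.comp_eq ▸ h x (g.span x)

theorem hg_ne {p q : ℤ} {σ τ : H Y.X} (hσ : σ ∈ T p q) (h0 : σ ≠ 0)
    (hτ : T (Y.n - p) (Y.n - q) ≤ ℂ ∙ τ) : Y.J (τ * σ) ≠ 0 := fun h => h0 <| Y.pd.nondeg σ fun y => by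
  refine Submodule.iSup_induction (motive := fun y => Y.J (y * σ) = 0) _ (g.span y)
    (fun i y hy => ?_) (by rw [zero_mul, map_zero]) fun a b ha hb => by
      rw [add_mul, map_add, ha, hb, add_zero]
  by_cases e : i.1 = Y.n - p ∧ i.2 = Y.n - q
  · rw [e.1, e.2] at hy
    obtain ⟨c, rfl⟩ := Submodule.mem_span_singleton.1 (hτ hy)
    rw [smul_mul_assoc, map_smul, h, smul_zero]
  · exact hg_J g (g.mul _ _ _ _ y hy σ hσ) (by omega)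

theorem hg_cj {p q : ℤ} {σ : H Y.X} (h : T p q ≤ ℂ ∙ σ) : T q p ≤ ℂ ∙ cj σ := fun x hx => by
  obtain ⟨c, hc⟩ := Submodule.mem_span_singleton.1 (h (g.cj _ _ x hx))
  exact Submodule.mem_span_singleton.2 ⟨conj c, by
    rw [← cj_cj x, ← hc, LinearMap.map_smulₛₗ]⟩

theorem hg_dec (h40 : T 4 0 = ⊥) {σ : H Y.X} (h31 : T 3 1 ≤ ℂ ∙ σ) {x : H Y.X} (hx : H.IsDeg 4 x) :
    ∃ (a b : ℂ), ∃ y ∈ T 2 2, x = a • σ + (y + b • cj σ) := by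
  have h13 := hg_cj g h31
  have h04 : T 0 4 ≤ ⊥ := fun x hx => by
    have := g.cj _ _ x hx
    rw [h40, Submodule.mem_bot] at this
    rw [← cj_cj x, this, map_zero]
    exact zero_mem _
  have h1 : ∀ p q, p + q = 4 → T p q ≤ (ℂ ∙ σ) ⊔ (T 2 2 ⊔ ℂ ∙ cj σ) := fun p q e => by
    by_cases e1 : p < 0 ∨ q < 0
    · rw [g.out p q (by omega)]; exact bot_le
    have : p = 0 ∧ q = 4 ∨ p = 1 ∧ q = 3 ∨ p = 2 ∧ q = 2 ∨ p = 3 ∧ q = 1 ∨ p = 4 ∧ q = 0 := by omega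
    rcases this with ⟨rfl, rfl⟩ | ⟨rfl, rfl⟩ | ⟨rfl, rfl⟩ | ⟨rfl, rfl⟩ | ⟨rfl, rfl⟩
    · exact h04.trans bot_le
    · exact le_sup_of_le_right (le_sup_of_le_right h13)
    · exact le_sup_of_le_right le_sup_left
    · exact le_sup_of_le_left h31
    · exact h40.le.trans bot_le
  obtain ⟨u, hu, w, hw, e⟩ := Submodule.mem_sup.1 (hg_deg g h1 hx)
  obtain ⟨y, hy, z, hz, e'⟩ := Submodule.mem_sup.1 hw
  obtain ⟨a, ha⟩ := Submodule.mem_span_singleton.1 hu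
  obtain ⟨b, hb⟩ := Submodule.mem_span_singleton.1 hz
  exact ⟨a, b, y, hy, by rw [ha, hb, e', e]⟩

/-- Real classes of type `(2, 2)` on a fourfold of K3 type. -/
theorem hg_22 (hr : Y.Re) (hn : Y.n = 4) (h40 : T 4 0 = ⊥) {σ : H Y.X} (hσ : σ ∈ T 3 1) (h0 : σ ≠ 0)
    (h31 : T 3 1 ≤ ℂ ∙ σ) {x : H Y.X} (hx : H.IsDeg 4 x) (hc : cj x = x) :
    x ∈ T 2 2 ↔ Y.J (σ * x) = 0 := by
  refine ⟨fun h => hg_J g (g.mul _ _ _ _ σ hσ x h) (by omega), fun h => ?_⟩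
  have hσ' := g.cj _ _ σ hσ
  have k1 : Y.J (cj σ * σ) ≠ 0 := hg_ne g hσ h0 (by
    rw [show Y.n - 3 = 1 by omega, show Y.n - 1 = 3 by omega]; exact hg_cj g h31)
  have k2 : Y.J (σ * cj σ) ≠ 0 := by rwa [J_comm (k := 2) (isDeg_cj (g.deg 3 1 σ hσ))]
  have h' : Y.J (cj σ * x) = 0 := by
    have := hr (σ * x)
    rwa [cj_mul, hc, h, map_zero] at this
  obtain ⟨a, b, y, hy, e⟩ := hg_dec g h40 h31 hx
  have j1 := hg_J g (g.mul _ _ _ _ σ hσ σ hσ) (by omega)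
  have j2 := hg_J g (g.mul _ _ _ _ σ hσ y hy) (by omega)
  have j3 := hg_J g (g.mul _ _ _ _ _ hσ' _ hσ') (by omega)
  have j4 := hg_J g (g.mul _ _ _ _ _ hσ' y hy) (by omega)
  rw [e, mul_add, mul_add, map_add, map_add, mul_smul_comm, mul_smul_comm, map_smul,
    map_smul] at h h'
  rw [j1, j2, smul_zero, zero_add, zero_add, smul_eq_zero] at h
  rw [j3, j4, smul_zero, add_zero, add_zero, smul_eq_zero] at h'
  rw [e, h.resolve_right k2, h'.resolve_right k1, zero_smul, zero_smul, zero_add, add_zero]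
  exact hy

end hodge

/-- **The last step, with Hodge types.** -/
theorem top_hg (zX : PZ X) (zS : PZ S) (zW : PZ W) (nX : X.n = 4) (nS : S.n = 2)
    {T : ℤ → ℤ → Submodule ℂ (H X.X)} (g : HG X T) (hr : X.Re) (h40 : T 4 0 = ⊥) {σ : H X.X}
    (hσ : σ ∈ T 3 1) (h0 : σ ≠ 0) (h31 : T 3 1 ≤ ℂ ∙ σ)
    {B : LinearMap.BilinForm ℤ (Lk X.X 4)} (hB : ∀ x y, (B x y : ℂ) = X.J (x.1 * y.1))
    (sB : Sig B 21 2) {η : Lk X.X 4} (hη : B η η = 3) (hηT : η.1 ∈ T 2 2)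
    (hc : ∀ x : Lk X.X 4, x.1 ∈ T 2 2 → Even (B x x - B x η))
    (hpos : ∀ x : Lk X.X 4, x.1 ∈ T 2 2 → x ≠ 0 → 0 < B x x)
    {C : LinearMap.BilinForm ℤ (Lk S.X 2)} (hC : ∀ x y, (C x y : ℂ) = S.J (x.1 * y.1))
    {σ' : H S.X} (hσ' : H.IsDeg 2 σ') {T' : Set (H S.X)} (hT' : ∀ a ∈ T', S.J (σ' * a) = 0)
    {M : Submodule ℤ (Lk S.X 2)} (uM : Bijective (C.restrict M))
    {n : ℕ} (hn : n ≤ 19) (sM : Sig (C.restrict M) 3 n)
    (hM : ∀ x, (∀ a : Lk S.X 2, a.1 ∈ T' → C a x = 0) → x ∈ M)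
    (p : C(W.X, X.X)) (hp : ∀ x, W.J (H.map p x) = X.J x) (φ : H S.X →ₗ[ℂ] H W.X)
    (φ0 : ∀ y ∈ Lk S.X 2, φ y ∈ Lam W.X)
    (φ1 : ∀ y, H.IsDeg 2 y → W.J (φ σ' * φ y) = -S.J (σ' * y)) (φ2 : H.map p σ = φ σ') :
    ∃ v : Lk X.X 4, v.1 ∈ T 2 2 ∧ Sat (Submodule.span ℤ {η, v}) ∧
      Adm (3 * B v v - B v η ^ 2) ∧ (6 < 3 * B v v - B v η ^ 2 ∨
        ∀ x : Lk X.X 4, x.1 ∈ T 2 2 → x ∈ Submodule.span ℤ {η, v}) := by
  have e : ∀ x : Lk X.X 4, x.1 ∈ T 2 2 ↔ X.J (σ * x.1) = 0 := fun x =>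
    hg_22 g hr nX h40 hσ h0 h31 x.2.2 (cj_of_Lam x.2.1)
  simp only [e] at hηT hc hpos ⊢
  exact top zX zS zW nX nS hB sB hη (g.deg _ _ σ hσ) hηT hc hpos hC hσ' uM hn sM
    (fun x hx => hM x fun a ha => hx a (hT' _ ha)) p hp φ φ0 φ1 φ2

end Vale.Agent.P287Q.Zc
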