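import Vale.Agent.P287Q.Int.Step
import Vale.Agent.P287Q.Int.Tau
import Vale.Agent.P287Q.Int.Ori
import Vale.Agent.P287Q.Int.PD
import Vale.Agent.P287Q.Int.Lat
import Vale.Agent.P287Q.Int.C1
import Vale.Agent.P287Q.Int.Top

/-!
# P287, integral structure: the unconditional results
-/

namespace Vale.Agent.P287Q.Zc

open P291Z P269 P269.Coh P269.Holo P269.Mono P269.Tq Set

theorem stTau : StTau := tau_of step

theorem stOri : StOri := ori_of stTau

theorem stLat : StLat := lat_of stInt stUni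

theorem stUniLk : StUniLk := uniLk_of stInt stUni

theorem stC1 : StC1 := c1_of stOri stInt stUni

theorem pz_of {Y : PS} [Nice Y.X] [CompactSpace Y.X] {β : BM Y.X} (h : OriZ (2 * Y.n) β)
    (e : Y.J = Loc.intg β) : PZ Y := by
  obtain ⟨h1, -, h3⟩ := stLat _ _ β h
  obtain ⟨B, h4, h5, -⟩ := h3 Y.n rfl
  exact ⟨e ▸ stInt _ _ β h, e ▸ stUni _ _ β h, h1, ⟨B, e ▸ h4, h5⟩,
    fun hn => e ▸ stUniLk _ _ β hn h⟩

variable {A W : Type} [NormedRing A] [NormedAlgebra ℂ A] [NormedAddCommGroup W]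
  [NormedSpace ℂ W] [FiniteDimensional ℂ A] [FiniteDimensional ℂ W] {act : A → W → W} {S : Set W}
  [IsAct act univ] {n : ℤ}

theorem oriZ_qm (h : QM act S n) : OriZ (2 * n) (fnd act S) := by
  have := h.fp
  by_cases hn : n < 0
  · have : IsEmpty (Quo act S) := ⟨mk_surj.forall.2 fun x => (h.neg hn).subset x.2⟩
    exact ⟨h.ori, isEmptyElim⟩
  · have h1 := stOri A W act S _ h.dim
    rwa [Int.toNat_of_nonneg (not_lt.1 hn)] at h1

theorem pz_qm (h : QM act S n) : PZ h.ps :=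
  haveI := h.fp
  haveI := h.cpt
  pz_of (oriZ_qm h) rfl

theorem lcq_Lk (h : QM act S n) {c : A → ℂ} (hc : Hm c) : lcq act S c ∈ Lk (Quo act S) 2 :=
  haveI := h.fp
  haveI := h.cpt
  ⟨lcq_mem_Lam stOri stInt stUni hc, lcq_deg hc⟩

end Vale.Agent.P287Q.Zc
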