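import Vale.Agent.P269.Orb.Ori

/-!
# P287, integral structure: integer valued cochains, integral classes, integral orientations
-/

namespace Vale.Agent.P287Q.Zc

open P291Z Set Topology Filter

variable {X Y : Type}

/-- The integers inside the complex numbers. -/
def ZZ : Subring ℂ := (Int.castRingHom ℂ).range

theorem mem_ZZ {z : ℂ} : z ∈ ZZ ↔ ∃ k : ℤ, z = k :=
  ⟨fun ⟨k, h⟩ => ⟨k, h.symm⟩, fun ⟨k, h⟩ => ⟨k, h.symm⟩⟩

theorem int_mem_ZZ (k : ℤ) : (k : ℂ) ∈ ZZ := ⟨k, rfl⟩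

/-- Integer valued cochains. -/
def IsZ (a : Coch X) : Prop := ∀ l, a.1 l ∈ ZZ

namespace IsZ

variable {a b : Coch X}

theorem zero : IsZ (0 : Coch X) := fun _ => ZZ.zero_mem

theorem one : IsZ (1 : Coch X) := fun l => by
  change unit X l ∈ ZZ
  unfold P291Z.unit
  split_ifs
  exacts [ZZ.one_mem, ZZ.zero_mem]

theorem add (ha : IsZ a) (hb : IsZ b) : IsZ (a + b) := fun l => ZZ.add_mem (ha l) (hb l)

theorem neg (ha : IsZ a) : IsZ (-a) := fun l => ZZ.neg_mem (ha l)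

theorem sub (ha : IsZ a) (hb : IsZ b) : IsZ (a - b) := fun l => ZZ.sub_mem (ha l) (hb l)

theorem smul {c : ℂ} (hc : c ∈ ZZ) (ha : IsZ a) : IsZ (c • a) := fun l => ZZ.mul_mem hc (ha l)

theorem zsmul (k : ℤ) (ha : IsZ a) : IsZ (k • a) := by
  rw [← Int.cast_smul_eq_zsmul ℂ]; exact ha.smul (int_mem_ZZ k)

theorem mul (ha : IsZ a) (hb : IsZ b) : IsZ (a * b) := fun l => by
  change ∑ p ∈ Finset.range l.length, a.1 (l.take (p + 1)) * b.1 (l.drop p) ∈ ZZ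
  exact ZZ.sum_mem fun _ _ => ZZ.mul_mem (ha _) (hb _)

theorem sum {ι : Type*} {s : Finset ι} {f : ι → Coch X} (h : ∀ i ∈ s, IsZ (f i)) :
    IsZ (∑ i ∈ s, f i) :=
  Finset.sum_induction f IsZ (fun _ _ => add) zero h

theorem prod {L : List (Coch X)} (h : ∀ c ∈ L, IsZ c) : IsZ L.prod :=
  List.prod_induction IsZ (fun _ _ => mul) one h

theorem δ (ha : IsZ a) : IsZ (δ a) := fun l => by
  change ∑ i ∈ Finset.range l.length, (-1) ^ i * a.1 (l.eraseIdx i) ∈ ZZ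
  exact ZZ.sum_mem fun _ _ => ZZ.mul_mem (ZZ.pow_mem (ZZ.neg_mem ZZ.one_mem) _) (ha _)

theorem pull {c : Coch Y} (hc : IsZ c) (f : X → Y) : IsZ (pull f c) := fun _ => hc _

theorem par (ha : IsZ a) : IsZ (par a) := fun _ =>
  ZZ.mul_mem (ZZ.pow_mem (ZZ.neg_mem ZZ.one_mem) _) (ha _)

theorem comp (ha : IsZ a) (k : ℤ) : IsZ (comp k a) := fun l => by
  rw [comp_val]
  split_ifs
  exacts [ha l, ZZ.zero_mem]

theorem cut (ha : IsZ a) (S : Set X) : IsZ (cut S a) := fun l => by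
  rw [cut_val]
  split_ifs
  exacts [ha l, ZZ.zero_mem]

theorem coneOp (ha : IsZ a) (x : X) : IsZ (coneOp x a) := fun l => by
  rw [coneOp_val]
  split_ifs
  exacts [ZZ.zero_mem, ha _]

theorem prismOp {c : Coch Y} (hc : IsZ c) (f g : X → Y) : IsZ (prismOp f g c) := fun l =>
  Chn.lin_mem (N := ZZ.toAddSubgroup.toIntSubmodule) ((prismCh_spec f g).2.2 l) fun m _ => hc m

theorem fn {f : X → ℂ} (hf : ∀ x, f x ∈ ZZ) : IsZ (fn f) := fun l => by
  match l with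
  | [] => exact (P291Z.fn f).2.1 ▸ ZZ.zero_mem
  | [x] => exact hf x
  | x :: y :: l =>
    rw [isDeg_fn f (x :: y :: l) (by simp only [List.length_cons]; omega)]
    exact ZZ.zero_mem

end IsZ

open Classical in
/-- The integer valued part of a cochain. -/
noncomputable def rnd (a : Coch X) : Coch X :=
  ⟨fun l => if a.1 l ∈ ZZ then a.1 l else 0, by
    obtain ⟨h0, N, hN⟩ := a.2
    exact ⟨by simp [h0], N, fun l hl => by simp [hN l hl]⟩⟩

open Classical in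
theorem rnd_val (a : Coch X) (l : List X) : (rnd a).1 l = if a.1 l ∈ ZZ then a.1 l else 0 := rfl

theorem isZ_rnd (a : Coch X) : IsZ (rnd a) := fun l => by
  rw [rnd_val]
  split_ifs with h
  exacts [h, ZZ.zero_mem]

theorem isDeg_rnd {k : ℤ} {a : Coch X} (ha : IsDeg k a) : IsDeg k (rnd a) := fun l hl => by
  rw [rnd_val, ha l hl, ite_self]

variable [TopologicalSpace X] [TopologicalSpace Y]

/-- Cochains which are integer valued near `x`. -/
def VanZ (x : X) : Submodule ℤ (Coch X) where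
  carrier := {a | ∃ U ∈ 𝓝 x, ∀ l : List X, (∀ y ∈ l, y ∈ U) → a.1 l ∈ ZZ}
  zero_mem' := ⟨univ, univ_mem, fun _ _ => ZZ.zero_mem⟩
  add_mem' := by
    rintro a b ⟨U, hU, h⟩ ⟨V, hV, h'⟩
    exact ⟨U ∩ V, inter_mem hU hV, fun l hl =>
      ZZ.add_mem (h l fun y hy => (hl y hy).1) (h' l fun y hy => (hl y hy).2)⟩
  smul_mem' := by
    rintro k a ⟨U, hU, h⟩
    refine ⟨U, hU, fun l hl => ?_⟩
    rw [← Int.cast_smul_eq_zsmul ℂ]
    exact ZZ.mul_mem (int_mem_ZZ k) (h l hl)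

theorem IsZ.vanZ {a : Coch X} (ha : IsZ a) (x : X) : a ∈ VanZ x := ⟨univ, univ_mem, fun l _ => ha l⟩

theorem vanZ_of_van {a : Coch X} {x : X} (ha : a ∈ Van x) : a ∈ VanZ x := by
  obtain ⟨U, hU, h⟩ := notMem_supp.1 ha
  exact ⟨U, hU, fun l hl => h l hl ▸ ZZ.zero_mem⟩

theorem sub_rnd_van {a : Coch X} {x : X} (ha : a ∈ VanZ x) : a - rnd a ∈ Van x := by
  obtain ⟨U, hU, h⟩ := ha
  refine notMem_supp.2 ⟨U, hU, fun l hl => ?_⟩
  rw [Coch.sub_val, Pi.sub_apply, rnd_val, if_pos (h l hl), sub_self]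

theorem vanZ_iff {a : Coch X} {x : X} : a ∈ VanZ x ↔ ∃ b, IsZ b ∧ a - b ∈ Van x :=
  ⟨fun h => ⟨_, isZ_rnd a, sub_rnd_van h⟩, fun ⟨b, h1, h2⟩ => by
    have := (VanZ x).add_mem (vanZ_of_van h2) (h1.vanZ x)
    rwa [sub_add_cancel] at this⟩

theorem supp_rnd (a : Coch X) : supp (rnd a) ⊆ supp a := fun x hx => by_contra fun h => by
  have h1 : a ∈ Van x := h
  have := (Van x).sub_mem h1 (sub_rnd_van (vanZ_of_van h1))
  rw [sub_sub_cancel] at this
  exact this hx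

theorem vanZ_of_pull {j : X → Y} (hj : IsOpenEmbedding j) {a : Coch Y} {x : X}
    (h : pull j a ∈ VanZ x) : a ∈ VanZ (j x) := by
  obtain ⟨U, hU, h1⟩ := h
  refine ⟨j '' U, hj.isOpenMap.image_mem_nhds hU, fun l hl => ?_⟩
  obtain ⟨l', h2, rfl⟩ : ∃ l' : List X, (∀ y ∈ l', y ∈ U) ∧ l'.map j = l := by
    clear h1
    induction l with
    | nil => exact ⟨[], by simp, rfl⟩
    | cons y l ih =>
      obtain ⟨l', h2, rfl⟩ := ih fun z hz => hl z (List.mem_cons_of_mem _ hz)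
      obtain ⟨z, hz, rfl⟩ := hl y List.mem_cons_self
      exact ⟨z :: l', by simpa [hz] using h2, rfl⟩
  exact h1 l' h2

variable (X) in
/-- **Integral classes**: the image of `H^*(X; ℤ)` in `H^*(X; ℂ)`. -/
noncomputable def Lam : Subring (H X) where
  carrier := {c | ∃ a, IsZ a ∧ supp (δ a) = ∅ ∧ hcls a = c}
  zero_mem' := ⟨0, .zero, by rw [map_zero]; exact supp_zero, hcls_zero⟩
  one_mem' := ⟨1, .one, cocycle_one, hcls_one⟩
  add_mem' := by
    rintro _ _ ⟨a, h1, h2, rfl⟩ ⟨b, h3, h4, rfl⟩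
    exact ⟨a + b, h1.add h3, cocycle_add h2 h4, hcls_add h2 h4⟩
  neg_mem' := by
    rintro _ ⟨a, h1, h2, rfl⟩
    exact ⟨-a, h1.neg, by rwa [map_neg, supp_neg], hcls_neg h2⟩
  mul_mem' := by
    rintro _ _ ⟨a, h1, h2, rfl⟩ ⟨b, h3, h4, rfl⟩
    exact ⟨a * b, h1.mul h3, cocycle_mul h2 h4, hcls_mul h2 h4⟩

theorem mem_Lam {c : H X} : c ∈ Lam X ↔ ∃ a, IsZ a ∧ supp (δ a) = ∅ ∧ hcls a = c := Iff.rfl

theorem hcls_mem_Lam {a : Coch X} (h : supp (δ a) = ∅) (hz : ∀ x, a ∈ VanZ x) : hcls a ∈ Lam X := by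
  have h1 : ∀ x, a - rnd a ∈ Van x := fun x => sub_rnd_van (hz x)
  have h2 : supp (δ (rnd a)) = ∅ := supp_eq_empty.2 fun x => by
    have := (Van x).sub_mem (supp_eq_empty.1 h x) (Van.δ (h1 x))
    rwa [map_sub, sub_sub_cancel] at this
  exact ⟨rnd a, isZ_rnd a, h2, (hcls_eq_of_null h2 h1).symm⟩

theorem Lam.map (f : C(X, Y)) {c : H Y} (hc : c ∈ Lam Y) : H.map f c ∈ Lam X := by
  obtain ⟨a, h1, h2, rfl⟩ := hc
  exact ⟨pull f a, h1.pull f, cocycle_pull f.2 h2, (H.map_hcls f h2).symm⟩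

theorem Lam.comp (k : ℤ) {c : H X} (hc : c ∈ Lam X) : H.comp k c ∈ Lam X := by
  obtain ⟨a, h1, h2, rfl⟩ := hc
  exact ⟨_, h1.comp k, cocycle_comp h2 k, (H.comp_hcls k h2).symm⟩

variable (X) in
/-- The lattice of the integral classes of degree `k`. -/
noncomputable def Lk (k : ℤ) : Submodule ℤ (H X) :=
  (Lam X).toAddSubgroup.toIntSubmodule ⊓ (H.deg X k).restrictScalars ℤ

theorem mem_Lk {k : ℤ} {c : H X} : c ∈ Lk X k ↔ c ∈ Lam X ∧ H.IsDeg k c := Iff.rfl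

/-- `b` generates the integral cohomology with compact supports. -/
structure GenZ (d : ℤ) (b : Coch X) : Prop where
  int : IsZ b
  zc : b ∈ Zc X
  deg : IsDeg d b
  gen : ∀ a ∈ Zc X, IsZ a → ∃ (z : ℤ) (c : Coch X), IsZ c ∧ IsCompact (supp c) ∧
    ∀ y, a - z • b - δ c ∈ Van y

/-- The integral cocycle `b` with support at `x` generates the integral cohomology with compact
supports near `x`. -/
structure PtGenZ (d : ℤ) (x : X) (b : Coch X) : Prop where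
  int : IsZ b
  cyc : supp (δ b) = ∅
  pt : supp b ⊆ {x}
  deg : IsDeg d b
  gen : ∀ U ∈ 𝓝 x, ∃ W ∈ 𝓝 x, W ⊆ U ∧ ∀ a ∈ Zc X, IsZ a → supp a ⊆ W → ∃ (z : ℤ) (c : Coch X),
    IsZ c ∧ IsCompact (supp c) ∧ supp c ⊆ U ∧ ∀ y, a - z • b - δ c ∈ Van y

/-- `β` is an integral orientation class of the manifold `X` of real dimension `d`. -/
structure OriZ (d : ℤ) (β : BM X) : Prop where
  ori : P269.Orb.Ori d β
  gen : ∀ x, ∃ b, PtGenZ d x b ∧ ev β b = 1

end Vale.Agent.P287Q.Zc
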