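import Vale.Agent.P287Q.Int.St

/-!
# P287, integral structure: suspension
-/

namespace Vale.Agent.P287Q.Zc

open P291Z Set Topology Filter

variable {X Y : Type} [TopologicalSpace X] [TopologicalSpace Y]

theorem step_prism {h : ℝ → X → Y} (hh : Continuous fun z : ℝ × X => h z.1 z.2) {K : Set X}
    (hK : IsCompact K) {a : Coch Y} (h1 : ∀ t ∈ Icc (0 : ℝ) 1, ∀ x ∈ K, a ∈ Van (h t x)) :
    ∀ᶠ e in 𝓝 (0 : ℝ), ∀ z ∈ Icc (0 : ℝ) 1 ×ˢ K, prismOp (h z.1) (h (z.1 + e)) a ∈ Van z.2 := by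
  refine (isCompact_Icc.prod hK).eventually_forall_of_forall_eventually
    (P := fun (e : ℝ) (z : ℝ × X) => prismOp (h z.1) (h (z.1 + e)) a ∈ Van z.2) fun z hz => ?_
  obtain ⟨V, hV, h2⟩ := notMem_supp.1 (h1 _ hz.1 _ hz.2)
  have c1 : Continuous fun w : ℝ × ℝ × X => h w.2.1 w.2.2 := hh.comp continuous_snd
  have c2 : Continuous fun w : ℝ × ℝ × X => h (w.2.1 + w.1) w.2.2 :=
    hh.comp (f := fun w : ℝ × ℝ × X => (w.2.1 + w.1, w.2.2)) (by fun_prop)
  have hO := (isOpen_interior (s := V)).preimage c1 |>.inter ((isOpen_interior (s := V)).preimage c2)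
  have hz' : h z.1 z.2 ∈ interior V := mem_interior_iff_mem_nhds.2 hV
  filter_upwards [hO.mem_nhds (x := (0, z)) ⟨hz', by simpa using hz'⟩] with w hw
  have c3 : Continuous fun x : X => (w.1, w.2.1, x) := by fun_prop
  refine notMem_supp.2 ⟨_, (hO.preimage c3).mem_nhds hw, fun l hl =>
    prismOp_val_eq_zero _ _ h2 fun x hx => ?_⟩
  exact ⟨interior_subset (hl x hx).1, interior_subset (hl x hx).2⟩

/-- homotopy invariance for integral cochains over a compact set -/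
theorem step_htpy {h : ℝ → X → Y} (hh : Continuous fun z : ℝ × X => h z.1 z.2) {K K' : Set X}
    (hK : IsCompact K) (hK' : IsCompact K') {a : Coch Y} (ha : IsZ a)
    (h1 : ∀ t ∈ Icc (0 : ℝ) 1, ∀ x ∈ K, δ a ∈ Van (h t x))
    (h2 : ∀ t ∈ Icc (0 : ℝ) 1, ∀ x ∈ K', a ∈ Van (h t x)) :
    ∃ c, IsZ c ∧ (∀ x ∈ K, pull (h 1) a - pull (h 0) a - δ c ∈ Van x) ∧ ∀ x ∈ K', c ∈ Van x := by
  obtain ⟨n, hn1, hn2⟩ := (tendsto_one_div_add_atTop_nhds_zero_nat (𝕜 := ℝ)).eventually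
    ((step_prism hh hK h1).and (step_prism hh hK' h2)) |>.exists
  have hp : (0 : ℝ) < n + 1 := by positivity
  let t : ℕ → ℝ := fun i => i / (n + 1)
  have ht : ∀ i, t (i + 1) = t i + 1 / (n + 1) := fun i => by simp only [t]; push_cast; ring
  have hm : ∀ i ∈ Finset.range (n + 1), t i ∈ Icc (0 : ℝ) 1 := fun i hi =>
    ⟨by positivity, (div_le_one hp).2 (by exact_mod_cast (Finset.mem_range.1 hi).le)⟩
  refine ⟨∑ i ∈ Finset.range (n + 1), prismOp (h (t i)) (h (t (i + 1))) a,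
    IsZ.sum fun i _ => ha.prismOp _ _, fun x hx => ?_, fun x hx =>
      Submodule.sum_mem _ fun i hi => ht i ▸ hn2 (t i, x) ⟨hm i hi, hx⟩⟩
  have e1 : t (n + 1) = 1 := by simp only [t]; push_cast; exact div_self hp.ne'
  have e0 : t 0 = 0 := by simp [t]
  have := Finset.sum_range_sub (fun i => pull (h (t i)) a) (n + 1)
  rw [e1, e0] at this
  rw [← this, map_sum, ← Finset.sum_sub_distrib]
  refine Submodule.sum_mem _ fun i hi => ?_
  rw [← prismOp_δ, add_sub_cancel_left, ht]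
  exact hn1 (t i, x) ⟨hm i hi, hx⟩

theorem step_cut [T2Space X] {K : Set X} (hK : IsCompact K) {c : Coch X}
    (h : ∀ x ∈ K, x ∉ interior K → c ∈ Van x) :
    IsCompact (supp (cut K c)) ∧ (∀ x ∈ K, c - cut K c ∈ Van x) ∧ ∀ x ∉ K, cut K c ∈ Van x := by
  have h0 : ∀ x ∉ K, cut K c ∈ Van x := fun x hx => cut_out (hK.isClosed.isOpen_compl.mem_nhds hx) c
  refine ⟨hK.of_isClosed_subset (isClosed_supp _) fun x hx => by_contra fun h1 => h0 x h1 hx,
    fun x hx => ?_, h0⟩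
  by_cases h1 : x ∈ interior K
  · exact cut_in (mem_interior_iff_mem_nhds.1 h1) c
  · exact (Van x).sub_mem (h x hx h1) (Van.cut (h x hx h1) K)

/-- the step function of the first coordinate -/
noncomputable def stepS (s : ℝ) : Coch (ℝ × Y) := fn fun x => if x.1 ≤ s then 1 else 0

omit [TopologicalSpace Y] in
theorem stepS_isZ (s : ℝ) : IsZ (stepS s : Coch (ℝ × Y)) := IsZ.fn fun x => by
  split_ifs
  exacts [ZZ.one_mem, ZZ.zero_mem]

theorem stepS_van {s : ℝ} {x : ℝ × Y} (h : s < x.1) : stepS s ∈ Van x := by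
  refine fn_van.2 ?_
  filter_upwards [continuous_fst.continuousAt (Ioi_mem_nhds h)] with y hy
  exact if_neg (not_le.2 hy)

theorem stepS_van' {s : ℝ} {x : ℝ × Y} (h : x.1 < s) : 1 - stepS s ∈ Van x := by
  rw [← fn_one, stepS, ← fn_sub]
  refine fn_van.2 ?_
  filter_upwards [continuous_fst.continuousAt (Iio_mem_nhds h)] with y hy
  rw [Pi.sub_apply, if_pos (le_of_lt hy), sub_self]

theorem stepS_δ {s : ℝ} {x : ℝ × Y} (h : x.1 ≠ s) : δ (stepS s) ∈ Van x := by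
  rcases lt_or_gt_of_ne h with h | h
  · have := (Van x).neg_mem (Van.δ (stepS_van' h))
    rwa [map_sub, δ_one_eq_zero, zero_sub, neg_neg] at this
  · exact Van.δ (stepS_van h)

omit [TopologicalSpace Y] in
theorem stepS_par (s : ℝ) : par (stepS s : Coch (ℝ × Y)) = stepS s := by
  have h : IsDeg 0 (stepS s : Coch (ℝ × Y)) := isDeg_fn _
  rw [h.par_eq, zpow_zero, one_smul]

omit [TopologicalSpace Y] in
theorem stepS_δ_mul (s : ℝ) (e : Coch (ℝ × Y)) : δ (δ (stepS s) * e) = -(δ (stepS s) * δ e) := by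
  rw [δ_mul, δ_δ, zero_mul, zero_add, ← neg_mul, ← neg_inj, ← neg_mul, ← δ_par, stepS_par, ← neg_mul,
    neg_neg]

/-- an integral cocycle with compact support on `ℝ × Y` is a suspension -/
theorem step_susp [T2Space Y] [LocallyCompactSpace Y] {a : Coch (ℝ × Y)} (ha : a ∈ Zc (ℝ × Y))
    (hz : IsZ a) : ∃ (s : ℝ) (c : Coch Y) (F : Coch (ℝ × Y)), 0 ≤ s ∧ c ∈ Zc Y ∧ IsZ c ∧ IsZ F ∧
      IsCompact (supp F) ∧ ∀ x, a - δ (stepS s) * pull Prod.snd c - δ F ∈ Van x := by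
  obtain ⟨C, hC, hC0⟩ := exists_compact_superset (ha.1.image continuous_snd)
  obtain ⟨M, hM0, hM⟩ := (ha.1.image continuous_fst).isBounded.subset_ball_lt 0 0
  have hs : ∀ x : ℝ × Y, (x.1 ≤ -M ∨ M ≤ x.1 ∨ x.2 ∉ interior C) → a ∈ Van x := fun x hx h => by
    have h1 := abs_lt.1 (by simpa using hM ⟨x, h, rfl⟩ : |x.1| < M)
    rcases hx with hx | hx | hx
    exacts [by linarith [h1.1], by linarith [h1.2], hx (hC0 ⟨x, h, rfl⟩)]
  have hK : IsCompact (Icc (-(3 * M)) (3 * M) ×ˢ C) := isCompact_Icc.prod hC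
  have hD : IsCompact (Icc M (3 * M) ×ˢ C) := isCompact_Icc.prod hC
  have hcl : IsClosed {x : ℝ × Y | x.2 ∉ interior C} :=
    isOpen_interior.isClosed_compl.preimage continuous_snd
  obtain ⟨c, hc, c1, c2⟩ := step_htpy (h := fun (t : ℝ) (x : ℝ × Y) => (x.1 - t * (4 * M), x.2))
    (by fun_prop) hK (hK.inter_right ((isClosed_le continuous_fst
      (continuous_const (y := -M))).union hcl)) hz (fun _ _ x _ => supp_eq_empty.1 ha.2 _)
    fun t ht x hx => hs _ (hx.2.imp (fun h : x.1 ≤ -M => by nlinarith [ht.1]) .inr)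
  have c3 : ∀ x ∈ Icc (-(3 * M)) (3 * M) ×ˢ C, a + δ c ∈ Van x := fun x hx => by
    have h1 : pull (fun x : ℝ × Y => (x.1 - 1 * (4 * M), x.2)) a ∈ Van x :=
      Van.pull (by fun_prop) (hs _ (.inl (by linarith [hx.1.2])))
    have h2 := (Van x).sub_mem h1 (c1 x hx)
    rw [show (fun x : ℝ × Y => (x.1 - 0 * (4 * M), x.2)) = id from funext fun x => by simp,
      pull_id] at h2
    rwa [show ∀ p : Coch (ℝ × Y), p - (p - a - δ c) = a + δ c from fun p => by abel] at h2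
  have hDK : Icc M (3 * M) ×ˢ C ⊆ Icc (-(3 * M)) (3 * M) ×ˢ C := fun x hx =>
    ⟨⟨by linarith [hx.1.1], hx.1.2⟩, hx.2⟩
  have c4 : ∀ x ∈ Icc M (3 * M) ×ˢ C, δ c ∈ Van x := fun x hx => by
    have := (Van x).sub_mem (c3 x (hDK hx)) (hs x (.inr (.inl hx.1.1)))
    rwa [add_sub_cancel_left] at this
  have hg : ∀ t ∈ Icc (0 : ℝ) 1, ∀ x ∈ Icc M (3 * M) ×ˢ C,
      (x.1 + t * (2 * M - x.1), x.2) ∈ Icc M (3 * M) ×ˢ C := fun t ht x hx =>
    ⟨⟨by nlinarith [ht.1, ht.2, hx.1.1, hx.1.2], by nlinarith [ht.1, ht.2, hx.1.1, hx.1.2]⟩, hx.2⟩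
  obtain ⟨e, he, e1, e2⟩ := step_htpy
    (h := fun (t : ℝ) (x : ℝ × Y) => (x.1 + t * (2 * M - x.1), x.2)) (by fun_prop) hD
    (hD.inter_right hcl) hc (fun t ht x hx => c4 _ (hg t ht x hx))
    fun t ht x hx => c2 _ ⟨hDK (hg t ht x hx.1), .inr hx.2⟩
  let i : Y → ℝ × Y := fun y => (2 * M, y)
  have hi : Continuous i := by fun_prop
  have hiD : ∀ y ∈ C, i y ∈ Icc M (3 * M) ×ˢ C := fun y hy =>
    ⟨⟨by simp only [i]; linarith, by simp only [i]; linarith⟩, hy⟩
  obtain ⟨u1, u2, u3⟩ := step_cut hC (c := pull i c) fun y hy h =>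
    Van.pull hi.continuousAt (c2 _ ⟨hDK (hiD y hy), .inr h⟩)
  have hF : ∀ x ∈ Icc (-(3 * M)) (3 * M) ×ˢ C, x ∉ interior (Icc (-(3 * M)) (3 * M) ×ˢ C) →
      δ (stepS (2 * M)) * e - stepS (2 * M) * c ∈ Van x := fun x hx h => by
    rw [interior_prod_eq, interior_Icc] at h
    refine (Van x).sub_mem ?_ ?_
    · by_cases h1 : x.1 = 2 * M
      · exact Van.mul_left (e2 x ⟨⟨⟨by linarith, by linarith⟩, hx.2⟩, fun h2 =>
          h ⟨⟨by linarith, by linarith⟩, h2⟩⟩) _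
      · exact Van.mul_right (stepS_δ h1) _
    · by_cases h1 : 2 * M < x.1
      · exact Van.mul_right (stepS_van h1) _
      · refine Van.mul_left (c2 x ⟨hx, by_contra fun h2 => ?_⟩) _
        have h3 : ¬(x.1 ≤ -M ∨ x.2 ∉ interior C) := h2
        push Not at h3 h1
        exact h ⟨⟨by linarith [h3.1], by linarith⟩, h3.2⟩
  obtain ⟨v1, v2, v3⟩ := step_cut hK hF
  refine ⟨2 * M, cut C (pull i c), _, by linarith, ⟨u1, supp_eq_empty.2 fun y => ?_⟩,
    (hc.pull i).cut C, (((stepS_isZ _).δ.mul he).sub ((stepS_isZ _).mul hc)).cut _, v1, fun x => ?_⟩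
  · by_cases hy : y ∈ C
    · have h1 : δ (pull i c) ∈ Van y := δ_pull i c ▸ Van.pull hi.continuousAt (c4 _ (hiD y hy))
      have := (Van y).sub_mem h1 (Van.δ (u2 y hy))
      rwa [map_sub, sub_sub_cancel] at this
    · exact Van.δ (u3 y hy)
  by_cases hx : x ∈ Icc (-(3 * M)) (3 * M) ×ˢ C
  · have h1 : δ (stepS (2 * M)) * (pull Prod.snd (cut C (pull i c)) - c - δ e) ∈ Van x := by
      by_cases h1 : x.1 = 2 * M
      · refine Van.mul_left ?_ _
        have h2 := e1 x ⟨⟨by linarith, by linarith⟩, hx.2⟩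
        rw [show (fun x : ℝ × Y => (x.1 + 0 * (2 * M - x.1), x.2)) = id from funext fun x => by simp,
          pull_id, show (fun x : ℝ × Y => (x.1 + 1 * (2 * M - x.1), x.2)) = i ∘ Prod.snd from
            funext fun x => by simp [i], ← pull_pull] at h2
        have h3 := (Van x).sub_mem h2 (Van.pull continuous_snd.continuousAt (u2 x.2 hx.2))
        rwa [map_sub, show ∀ p q : Coch (ℝ × Y), p - c - δ e - (p - q) = q - c - δ e from
          fun p q => by abel] at h3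
      · exact Van.mul_right (stepS_δ h1) _
    have h2 : (1 - stepS (2 * M)) * a ∈ Van x := by
      by_cases h2 : x.1 < 2 * M
      · exact Van.mul_right (stepS_van' h2) _
      · exact Van.mul_left (hs x (.inr (.inl (by linarith [not_lt.1 h2])))) _
    have h3 := (Van x).add_mem ((Van x).sub_mem ((Van x).add_mem h2
      (Van.mul_left (c3 x hx) (stepS (2 * M)))) h1) (Van.δ (v2 x hx))
    rw [map_sub, map_sub, stepS_δ_mul, δ_mul, stepS_par] at h3
    refine (congrArg (· ∈ Van x) ?_).mp h3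
    noncomm_ring
  · refine (Van x).sub_mem ((Van x).sub_mem (hs x (by_contra fun h => hx ?_)) ?_) (Van.δ (v3 x hx))
    · push Not at h
      exact ⟨⟨by linarith [h.1], by linarith [h.2.1]⟩, interior_subset h.2.2⟩
    · by_cases h1 : x.1 = 2 * M
      · exact Van.mul_left (Van.pull continuous_snd.continuousAt (u3 _ fun h =>
          hx ⟨⟨by linarith, by linarith⟩, h⟩)) _
      · exact Van.mul_right (stepS_δ h1) _

theorem step : StStep := by
  intro Y _ _ d b hb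
  have e0 : (pull Prod.fst (δ stp) : Coch (ℝ × Y)) = δ (stepS 0) := by
    rw [← δ_pull, stp, pull_fn]; rfl
  have hc : ∀ (p : Coch (ℝ × Y)) (s t : ℝ) (u : Coch Y), IsCompact (supp u) →
      (∀ x : ℝ × Y, x.1 ∉ Icc s t → p ∈ Van x) → IsCompact (supp (p * pull Prod.snd u)) :=
    fun p s t u hu hp => (isCompact_Icc (a := s) (b := t)).prod hu |>.of_isClosed_subset
      (isClosed_supp _) fun x hx => ⟨by_contra fun h => hp x h (supp_mul _ _ hx).1,
        supp_pull continuous_snd u (supp_mul _ _ hx).2⟩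
  have hd : ∀ (s : ℝ) (x : ℝ × Y), x.1 ∉ Icc s s → δ (stepS s) ∈ Van x := fun s x h =>
    stepS_δ fun h1 => h ⟨h1.ge, h1.le⟩
  have hbδ : ∀ x : ℝ × Y, δ (pull Prod.snd b) ∈ Van x := fun x =>
    δ_pull _ b ▸ Van.pull continuous_snd.continuousAt (supp_eq_empty.1 hb.zc.2 _)
  rw [e0]
  refine ⟨(stepS_isZ _).δ.mul (hb.int.pull _), ⟨hc _ 0 0 b hb.zc.1 (hd 0),
    supp_eq_empty.2 fun x => ?_⟩, (((isDeg_fn _).δ).mul (hb.deg.pull _)).cast (by ring),
    fun a ha hz => ?_⟩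
  · rw [stepS_δ_mul]
    exact (Van x).neg_mem (Van.mul_left (hbδ x) _)
  obtain ⟨s, c, F, hs, c1, c2, F1, F2, h⟩ := step_susp ha hz
  obtain ⟨z, u, u1, u2, u3⟩ := hb.gen c c1 c2
  have hp : ∀ x : ℝ × Y, x.1 ∉ Icc 0 s → stepS s - stepS 0 ∈ Van x := fun x hx => by
    rcases not_and_or.1 hx with h1 | h1
    · have := (Van x).sub_mem (stepS_van' (not_le.1 h1)) (stepS_van' ((not_le.1 h1).trans_le hs))
      rwa [sub_sub_sub_cancel_left] at this
    · exact (Van x).sub_mem (stepS_van (not_le.1 h1)) (stepS_van (hs.trans_lt (not_le.1 h1)))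
  refine ⟨z, F + (-1 : ℂ) • (δ (stepS s) * pull Prod.snd u) +
      (z : ℂ) • ((stepS s - stepS 0) * pull Prod.snd b),
    (F1.add (((stepS_isZ _).δ.mul (u1.pull _)).smul (ZZ.neg_mem ZZ.one_mem))).add
      ((((stepS_isZ _).sub (stepS_isZ _)).mul (hb.int.pull _)).smul (int_mem_ZZ z)),
    isCompact_supp_add (isCompact_supp_add F2 (isCompact_supp_smul _ (hc _ s s u u2 (hd s))))
      (isCompact_supp_smul _ (hc _ 0 s b hb.zc.1 hp)), fun x => ?_⟩
  have h1 := Van.mul_left (Van.pull (f := Prod.snd) continuous_snd.continuousAt (u3 x.2))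
    (δ (stepS s))
  have h2 := (Van x).smul_mem (z : ℂ) (Van.mul_left (hbδ x) (par (stepS s - stepS 0)))
  have h3 := (Van x).sub_mem ((Van x).add_mem (h x) h1) h2
  refine (congrArg (· ∈ Van x) ?_).mp h3
  rw [← Int.cast_smul_eq_zsmul ℂ, ← Int.cast_smul_eq_zsmul ℂ, map_add δ, map_add δ, map_smul δ,
    map_smul δ, stepS_δ_mul, δ_mul (stepS s - stepS 0), map_sub δ, map_sub (pull _),
    map_sub (pull _), map_smul (pull _), ← δ_pull]
  simp only [mul_sub, sub_mul, mul_smul_comm]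
  module

end Vale.Agent.P287Q.Zc
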