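import Vale.Agent.P287Q.Int.Trn
import Vale.Agent.P287Q.Lat.Main

/-!
# P287, integral structure: from a correspondence to the labelling (algebra)
-/

namespace Vale.Agent.P287Q.Zc

open Module Function P287Q.Lat

theorem span_of_rank {L : Type*} [AddCommGroup L] [Module.Free ℤ L] [Module.Finite ℤ L]
    (B : LinearMap.BilinForm ℤ L) (hB : ∀ x y, B x y = B y x) {η v : L} (hη : B η η = 3)
    {A : Submodule ℤ L} (hηA : η ∈ A) (hv : v ∈ A) (hs : Sat (Submodule.span ℤ {η, v}))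
    (hd : 3 * B v v - B v η ^ 2 ≠ 0) (hr : finrank ℤ A < 3) {x : L} (hx : x ∈ A) :
    x ∈ Submodule.span ℤ {η, v} := by
  have h1 : ¬ LinearIndependent ℤ ![(⟨η, hηA⟩ : A), ⟨v, hv⟩, ⟨x, hx⟩] := fun h => by
    have := h.fintype_card_le_finrank
    rw [Fintype.card_fin] at this
    omega
  obtain ⟨g, h2, i, h3⟩ := Fintype.not_linearIndependent_iff.1 h1
  have h4 : g 0 • η + g 1 • v + g 2 • x = 0 := by
    simpa [Fin.sum_univ_three] using congrArg Subtype.val h2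
  by_cases h5 : g 2 = 0
  · rw [h5, zero_smul, add_zero] at h4
    have e1 := congrArg (fun y => B y η) h4
    have e2 := congrArg (fun y => B y v) h4
    simp only [map_add, map_smul, LinearMap.add_apply, LinearMap.smul_apply, smul_eq_mul, map_zero,
      LinearMap.zero_apply, hη, hB η v] at e1 e2
    have k1 : g 1 = 0 :=
      (mul_eq_zero.1 (show g 1 * _ = 0 by linear_combination 3 * e2 - B v η * e1)).resolve_right hd
    have k0 : g 0 = 0 := by rw [k1] at e1; omega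
    exact absurd (by fin_cases i <;> assumption) h3
  · refine hs (g 2) x h5 (Submodule.mem_span_pair.2 ⟨-g 0, -g 1, ?_⟩)
    rw [neg_smul, neg_smul, ← neg_add, eq_comm, eq_neg_iff_add_eq_zero, add_comm, h4]

variable {V V' : Type} [AddCommGroup V] [Module ℂ V] [AddCommGroup V'] [Module ℂ V']
  {J : LinearMap.BilinForm ℂ V} {J' : LinearMap.BilinForm ℂ V'} {U : Submodule ℂ V}
  {U' : Submodule ℂ V'} {L : Submodule ℤ V} {L' : Submodule ℤ V'} {σ : V} {σ' : V'}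

theorem top_alg [Module.Free ℤ L] [Module.Finite ℤ L] [Module.Free ℤ L'] [Module.Finite ℤ L']
    (hU : Uni J U L) (hU' : Uni J' U' L') (hσ : σ ∈ U) (hσ' : σ' ∈ U')
    {B : LinearMap.BilinForm ℤ L} (hB : ∀ x y, (B x y : ℂ) = J x y) (uB : Bijective B)
    (sB : Sig B 21 2) {η : L} (hη : B η η = 3) (hησ : J σ η = 0)
    (hc : ∀ x : L, J σ x = 0 → Even (B x x - B x η)) (hpos : ∀ x : L, J σ x = 0 → x ≠ 0 → 0 < B x x)
    {C : LinearMap.BilinForm ℤ L'} (hC : ∀ x y, (C x y : ℂ) = J' x y) {M : Submodule ℤ L'}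
    (uM : Bijective (C.restrict M)) {n : ℕ} (hn : n ≤ 19) (sM : Sig (C.restrict M) 3 n)
    (hM : ∀ x : L', (∀ a : L', J' σ' a = 0 → C a x = 0) → x ∈ M)
    (c : V →ₗ[ℂ] V' →ₗ[ℂ] ℂ) (c0 : ∀ x ∈ L, ∀ y ∈ L', c x y ∈ ZZ)
    (c1 : ∀ y ∈ U', c σ y = -J' σ' y) (c2 : ∀ x ∈ U, c x σ' = J σ x) :
    ∃ v : L, J σ v = 0 ∧ Sat (Submodule.span ℤ {η, v}) ∧ Adm (3 * B v v - B v η ^ 2) ∧
      (6 < 3 * B v v - B v η ^ 2 ∨ ∀ x : L, J σ x = 0 → x ∈ Submodule.span ℤ {η, v}) := by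
  obtain ⟨e, he⟩ := trn_iso V V' J J' U U' L L' σ σ' c hU hU' hσ hσ' c0 c1 c2
  have sy : ∀ x y, B x y = B y x := fun x y => by
    exact_mod_cast (hB x y).trans ((Trn.symm_L hU x.2 y.2).trans (hB y x).symm)
  have sy' : ∀ x y, C x y = C y x := fun x y => by
    exact_mod_cast (hC x y).trans ((Trn.symm_L hU' x.2 y.2).trans (hC y x).symm)
  let A : Submodule ℤ L := (alg J L σ).comap L.subtype
  have mA : ∀ x : L, x ∈ A ↔ J σ x = 0 := fun x => Trn.mem_alg.trans (and_iff_right x.2)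
  have mO : ∀ y : L, y ∈ B.orthogonal A ↔ y.1 ∈ trn J L σ := fun y => by
    rw [Trn.mem_trn, and_iff_right y.2]
    refine ⟨fun h a ha h0 => ?_, fun h a ha => ?_⟩
    · have : B ⟨a, ha⟩ y = 0 := h _ ((mA _).2 h0)
      rw [← hB ⟨a, ha⟩ y, this, Int.cast_zero]
    · have := h a.1 a.2 ((mA a).1 ha)
      rw [← hB] at this
      exact_mod_cast this
  have mM : ∀ t : trn J' L' σ', (⟨t.1, (Trn.mem_trn.1 t.2).1⟩ : L') ∈ M := fun t =>
    hM _ fun a ha => by
      have := (Trn.mem_trn.1 t.2).2 a.1 a.2 ha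
      exact_mod_cast (hC a ⟨t.1, (Trn.mem_trn.1 t.2).1⟩).trans this
  let g : B.orthogonal A →ₗ[ℤ] trn J L σ :=
    (L.subtype ∘ₗ (B.orthogonal A).subtype).codRestrict _ fun y => (mO y.1).1 y.2
  let k : trn J' L' σ' →ₗ[ℤ] M :=
    ((trn J' L' σ').subtype.codRestrict L' fun t => (Trn.mem_trn.1 t.2).1).codRestrict M mM
  have hA : Sat A := fun m x hm h => (mA x).2 (by
    have := (mA _).1 h
    rw [Submodule.coe_smul, map_zsmul, zsmul_eq_mul] at this
    exact (mul_eq_zero.1 this).resolve_left (Int.cast_ne_zero.2 hm))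
  obtain ⟨v, h1, h2, h3, h4⟩ := main B sy uB sB η hη A hA ((mA η).2 hησ)
    (fun x hx => hc x ((mA x).1 hx)) (fun x hx => hpos x ((mA x).1 hx)) (C.restrict M)
    (fun x y => sy' x y) uM n hn sM (k ∘ₗ e.toLinearMap ∘ₗ g) (fun x y => by
      have := (hC (k (e (g x))).1 (k (e (g y))).1).trans ((he (g x) (g y)).trans
        (congrArg Neg.neg (hB x.1 y.1).symm))
      exact_mod_cast this)
    (fun x y h => by
      have h1 : e (g x) = e (g y) := Subtype.ext (congrArg (fun z : M => z.1.1) h)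
      exact Subtype.ext (Subtype.ext (congrArg (fun z : trn J L σ => z.1) (e.injective h1))))
    (fun m x hm ⟨y, hy⟩ => by
      have h1 : (e (g y)).1 = m • x.1.1 := congrArg (fun z : M => z.1.1) hy
      have h2 : x.1.1 ∈ trn J' L' σ' := Trn.mem_trn.2 ⟨x.1.2, fun a ha h0 => by
        have := (Trn.mem_trn.1 (e (g y)).2).2 a ha h0
        rw [h1, map_zsmul, zsmul_eq_mul] at this
        exact (mul_eq_zero.1 this).resolve_left (Int.cast_ne_zero.2 hm)⟩
      obtain ⟨t, ht⟩ := e.surjective ⟨_, h2⟩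
      refine ⟨⟨⟨t.1, (Trn.mem_trn.1 t.2).1⟩, (mO _).2 t.2⟩, Subtype.ext (Subtype.ext ?_)⟩
      exact congrArg (fun z : trn J' L' σ' => z.1) ht)
  refine ⟨v, (mA v).1 h1, h2, h3, ?_⟩
  by_cases h5 : 3 ≤ finrank ℤ A
  · exact .inl (h4 h5)
  · exact .inr fun x hx =>
      span_of_rank B sy hη ((mA η).2 hησ) h1 h2 h3.1.ne' (not_le.1 h5) ((mA x).2 hx)

end Vale.Agent.P287Q.Zc
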