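import Vale.Agent.P287Q.Int.St

/-!
# P287, integral structure: transcendental lattices matched by an integral correspondence
-/

namespace Vale.Agent.P287Q.Zc

namespace Trn

variable {V V' : Type} [AddCommGroup V] [Module ℂ V] [AddCommGroup V'] [Module ℂ V']
  {J : LinearMap.BilinForm ℂ V} {J' : LinearMap.BilinForm ℂ V'} {U : Submodule ℂ V}
  {U' : Submodule ℂ V'} {L : Submodule ℤ V} {L' : Submodule ℤ V'} {σ : V} {σ' : V'}

theorem mem_alg {x : V} : x ∈ alg J L σ ↔ x ∈ L ∧ J σ x = 0 := by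
  simp [alg]

theorem mem_trn {x : V} : x ∈ trn J L σ ↔ x ∈ L ∧ ∀ a ∈ L, J σ a = 0 → J a x = 0 := by
  simp [trn, Submodule.mem_iInf, mem_alg]

theorem le_U (h : Uni J U L) {x : V} (hx : x ∈ L) : x ∈ U :=
  h.span ▸ Submodule.subset_span hx

theorem symm_L (h : Uni J U L) {x y : V} (hx : x ∈ L) (hy : y ∈ L) : J x y = J y x :=
  h.symm x (le_U h hx) y (le_U h hy)

/-- The form is nondegenerate on the lattice. -/
theorem nondeg_L (h : Uni J U L) {x : V} (hx : x ∈ L) (h0 : ∀ y ∈ L, J x y = 0) : x = 0 := by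
  refine h.nondeg x (le_U h hx) fun y hy => ?_
  have hle : Submodule.span ℂ (L : Set V) ≤ LinearMap.ker (J x) :=
    Submodule.span_le.2 fun z hz => h0 z hz
  exact hle (h.span ▸ hy)

/-- A pair of mutually (anti-)adjoint maps of lattices, which match the two classes. -/
structure Adj (J : LinearMap.BilinForm ℂ V) (J' : LinearMap.BilinForm ℂ V') (L : Submodule ℤ V)
    (L' : Submodule ℤ V') (σ : V) (σ' : V') (g : V → V') (g' : V' → V) : Prop where
  map : ∀ x ∈ L, g x ∈ L'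
  map' : ∀ y ∈ L', g' y ∈ L
  adj : ∀ x ∈ L, ∀ y ∈ L', J' (g x) y = -J (g' y) x
  cls : ∀ x ∈ L, J' σ' (g x) = -J σ x
  cls' : ∀ y ∈ L', J σ (g' y) = -J' σ' y

variable {g : V → V'} {g' : V' → V}

theorem Adj.flip (a : Adj J J' L L' σ σ' g g') : Adj J' J L' L σ' σ g' g :=
  ⟨a.map', a.map, fun y hy x hx => by rw [a.adj x hx y hy, neg_neg], a.cls', a.cls⟩

theorem Adj.map_trn (a : Adj J J' L L' σ σ' g g') (h' : Uni J' U' L') {t : V}
    (ht : t ∈ trn J L σ) : g t ∈ trn J' L' σ' := by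
  obtain ⟨htL, ht0⟩ := mem_trn.1 ht
  refine mem_trn.2 ⟨a.map t htL, fun y hy hy0 => ?_⟩
  rw [symm_L h' hy (a.map t htL), a.adj t htL y hy,
    ht0 _ (a.map' y hy) (by rw [a.cls' y hy, hy0, neg_zero]), neg_zero]

theorem Adj.inv (a : Adj J J' L L' σ σ' g g') (h : Uni J U L) (h' : Uni J' U' L') {t : V}
    (ht : t ∈ trn J L σ) : g' (g t) = t := by
  obtain ⟨htL, ht0⟩ := mem_trn.1 ht
  have hgt := a.map t htL
  refine sub_eq_zero.1 (nondeg_L h (L.sub_mem (a.map' _ hgt) htL) fun x hx => ?_)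
  have hgx := a.map x hx
  have h1 : J (g' (g t)) x = J (g' (g x)) t := by
    rw [← neg_inj, ← a.adj x hx _ hgt, ← a.adj t htL _ hgx, symm_L h' hgx hgt]
  have h2 : J (g' (g x) - x) t = 0 := by
    refine ht0 _ (L.sub_mem (a.map' _ hgx) hx) ?_
    rw [map_sub, a.cls' _ hgx, a.cls x hx, neg_neg, sub_self]
  rw [map_sub, LinearMap.sub_apply] at h2 ⊢
  rw [h1, symm_L h htL hx, h2]

theorem Adj.add (a : Adj J J' L L' σ σ' g g') (h' : Uni J' U' L') {x y : V} (hx : x ∈ L)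
    (hy : y ∈ L) : g (x + y) = g x + g y := by
  have hxy := L.add_mem hx hy
  refine sub_eq_zero.1 (nondeg_L h'
    (L'.sub_mem (a.map _ hxy) (L'.add_mem (a.map x hx) (a.map y hy))) fun z hz => ?_)
  rw [map_sub, map_add, LinearMap.sub_apply, LinearMap.add_apply, a.adj _ hxy z hz,
    a.adj x hx z hz, a.adj y hy z hz, map_add, neg_add, sub_self]

/-- The additive equivalence of the transcendental lattices. -/
def Adj.equiv (a : Adj J J' L L' σ σ' g g') (h : Uni J U L) (h' : Uni J' U' L') :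
    trn J L σ ≃+ trn J' L' σ' where
  toFun t := ⟨g t.1, a.map_trn h' t.2⟩
  invFun t := ⟨g' t.1, a.flip.map_trn h t.2⟩
  left_inv t := Subtype.ext (a.inv h h' t.2)
  right_inv t := Subtype.ext (a.flip.inv h' h t.2)
  map_add' s t := Subtype.ext (a.add h' (mem_trn.1 s.2).1 (mem_trn.1 t.2).1)

theorem Adj.iso (a : Adj J J' L L' σ σ' g g') (h : Uni J U L) (h' : Uni J' U' L') :
    ∃ f : trn J L σ ≃ₗ[ℤ] trn J' L' σ', ∀ s t, J' (f s).1 (f t).1 = -J s.1 t.1 := by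
  refine ⟨(a.equiv h h').toIntLinearEquiv, fun s t => ?_⟩
  have hs := (mem_trn.1 s.2).1
  have ht := (mem_trn.1 t.2).1
  change J' (g s.1) (g t.1) = _
  rw [a.adj _ hs _ (a.map _ ht), a.inv h h' t.2, symm_L h ht hs]

/-- The map of lattices defined by an integral pairing. -/
theorem exists_map (h' : Uni J' U' L') (c : V →ₗ[ℂ] V' →ₗ[ℂ] ℂ)
    (hc : ∀ x ∈ L, ∀ y ∈ L', c x y ∈ ZZ) :
    ∃ g : V → V', ∀ x ∈ L, g x ∈ L' ∧ ∀ y ∈ U', J' (g x) y = c x y := by
  have h1 : ∀ x : V, ∃ z : V', x ∈ L → z ∈ L' ∧ ∀ y ∈ U', J' z y = c x y := fun x => by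
    by_cases hx : x ∈ L
    · obtain ⟨z, hz, hz'⟩ := h'.rep (c x) (hc x hx)
      exact ⟨z, fun _ => ⟨hz, hz'⟩⟩
    · exact ⟨0, fun h => absurd h hx⟩
  choose g hg using h1
  exact ⟨g, hg⟩

end Trn

open Trn in
/-- An integral correspondence which matches the classes identifies the transcendental lattices. -/
theorem trn_iso : StTrn := by
  intro V V' _ _ _ _ J J' U U' L L' σ σ' c h h' hσ hσ' hc h1 h2
  obtain ⟨g, hg⟩ := exists_map h' (-c) fun x hx y hy => ZZ.neg_mem (hc x hx y hy)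
  obtain ⟨g', hg'⟩ := exists_map h c.flip fun y hy x hx => hc x hx y hy
  refine Adj.iso (g := g) (g' := g') ⟨fun x hx => (hg x hx).1, fun y hy => (hg' y hy).1,
    fun x hx y hy => ?_, fun x hx => ?_, fun y hy => ?_⟩ h h'
  · rw [(hg x hx).2 y (le_U h' hy), (hg' y hy).2 x (le_U h hx)]
    rfl
  · rw [h'.symm _ hσ' _ (le_U h' (hg x hx).1), (hg x hx).2 _ hσ', ← h2 x (le_U h hx)]
    rfl
  · rw [h.symm _ hσ _ (le_U h (hg' y hy).1), (hg' y hy).2 _ hσ, ← h1 y (le_U h' hy)]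
    rfl

end Vale.Agent.P287Q.Zc
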